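import Crest.Agent.R50.Hemisphere

/-! Lebesgue number lemma for closed sets, indicator cochains, points with many colours. -/

set_option autoImplicit false

open scoped RealInnerProductSpace
open Module

namespace Crest.Agent.R50

/-- Lebesgue number lemma for finitely many closed sets. -/
theorem lebesgue_closed {X D : Type} [PseudoMetricSpace X] [Finite D] {S : Set X}
    (hS : IsCompact S) (A : D → Set X) (hA : ∀ d, IsClosed (A d)) :
    ∃ δ > 0, ∀ x ∈ S, ∃ z ∈ S, ∀ d, (∃ y ∈ A d, dist x y ≤ δ) → z ∈ A d := by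
  obtain ⟨δ, hδ, h⟩ := lebesgue_number_lemma_of_metric (ι := S)
    (c := fun z => ⋂ d ∈ {d | z.1 ∉ A d}, (A d)ᶜ) hS
    (fun z => (Set.toFinite _).isOpen_biInter fun d _ => (hA d).isOpen_compl)
    (fun x hx => Set.mem_iUnion.mpr ⟨⟨x, hx⟩, by simp⟩)
  refine ⟨δ / 2, half_pos hδ, fun x hx => ?_⟩
  obtain ⟨z, hz⟩ := h x hx
  refine ⟨z.1, z.2, fun d ⟨y, hy, hxy⟩ => ?_⟩
  by_contra hzd
  have : y ∈ Metric.ball x δ := by
    rw [Metric.mem_ball, dist_comm]
    linarith
  have := hz this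
  simp only [Set.mem_ofPred_eq, Set.mem_iInter, Set.mem_compl_iff] at this
  exact this d hzd hy

section ind
variable {ι : Type}

open Classical in
/-- Indicator cochain of a simplex. -/
noncomputable def ind (A M : Multiset ι) : ZMod 2 := if M = A then 1 else 0

theorem ind_self (A : Multiset ι) : ind A A = 1 := by simp [ind]

theorem ind_of_ne {A M : Multiset ι} (h : M ≠ A) : ind A M = 0 := by simp [ind, h]

theorem eq_of_ind_ne_zero {A M : Multiset ι} (h : ind A M ≠ 0) : M = A := by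
  by_contra hne
  exact h (ind_of_ne hne)

theorem cob_ind_cons [DecidableEq ι] {A : Multiset ι} (hA : A.Nodup) (v : ι) :
    cob (ind A) (v ::ₘ A) = if v ∈ A then 0 else 1 := by
  rw [cob_eq]
  have : ((v ::ₘ A).map fun x => ind A ((v ::ₘ A).erase x)) =
      (v ::ₘ A).map fun x => if x = v then (1 : ZMod 2) else 0 := by
    apply Multiset.map_congr rfl
    intro x hx
    by_cases hxv : x = v
    · subst hxv
      simp [ind]
    · rw [if_neg hxv, ind_of_ne]
      intro h
      have h2 := Multiset.cons_erase hx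
      rw [h, Multiset.cons_inj_left] at h2
      exact hxv h2
  rw [this, Multiset.map_cons, Multiset.sum_cons, if_pos rfl]
  by_cases hv : v ∈ A
  · obtain ⟨B, rfl⟩ := Multiset.exists_cons_of_mem hv
    rw [Multiset.nodup_cons] at hA
    rw [if_pos hv, Multiset.map_cons, Multiset.sum_cons, if_pos rfl, ← add_assoc, z2_add_self,
      zero_add]
    apply Multiset.sum_eq_zero
    intro a ha
    obtain ⟨x, hx, rfl⟩ := Multiset.mem_map.mp ha
    rw [if_neg]
    rintro rfl
    exact hA.1 hx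
  · rw [if_neg hv, Multiset.sum_eq_zero, add_zero]
    intro a ha
    obtain ⟨x, hx, rfl⟩ := Multiset.mem_map.mp ha
    rw [if_neg]
    rintro rfl
    exact hv hx

theorem cob_ind [Fintype ι] [DecidableEq ι] {A : Multiset ι} (hA : A.Nodup) (M : Multiset ι) :
    cob (ind A) M = ∑ v ∈ Finset.univ.filter (fun v => v ∉ A), ind (v ::ₘ A) M := by
  by_cases h : ∃ v, M = v ::ₘ A
  · obtain ⟨v, rfl⟩ := h
    rw [cob_ind_cons hA]
    by_cases hv : v ∈ A
    · rw [if_pos hv, Finset.sum_eq_zero]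
      intro u hu
      apply ind_of_ne
      intro h
      rw [Multiset.cons_inj_left] at h
      subst h
      simp [hv] at hu
    · rw [if_neg hv, Finset.sum_eq_single v, ind_self]
      · intro u _ huv
        apply ind_of_ne
        intro h
        rw [Multiset.cons_inj_left] at h
        exact huv h.symm
      · intro h
        simp [hv] at h
  · push Not at h
    rw [cob_eq_zero, Finset.sum_eq_zero]
    · intro u _
      exact ind_of_ne (h u)
    · intro x s hs
      apply ind_of_ne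
      rintro rfl
      exact h x hs

end ind

section general
variable {E : Type} [NormedAddCommGroup E] [InnerProductSpace ℝ E] [FiniteDimensional ℝ E]
  {ι : Type} (C : Cover E ι)

theorem Cover.isCompact (i : ι) : IsCompact (C.F i) :=
  (isCompact_sphere (0 : E) 1).of_isClosed_subset (C.closed i) fun x hx => by
    simpa using C.unit i x hx

/-- A uniform gap for inner products inside a class. -/
theorem Cover.exists_gap [Finite ι] :
    ∃ ε > 0, ∀ i, ∀ x ∈ C.F i, ∀ y ∈ C.F i, ε ≤ |⟪x, y⟫| := by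
  have h : ∀ i, ∃ ε > 0, ∀ x ∈ C.F i, ∀ y ∈ C.F i, ε ≤ |⟪x, y⟫| := by
    intro i
    by_cases hne : (C.F i).Nonempty
    · have hc : IsCompact (C.F i ×ˢ C.F i) := (C.isCompact i).prod (C.isCompact i)
      obtain ⟨p, hp, hmin⟩ := hc.exists_isMinOn (hne.prod hne)
        (f := fun p : E × E => |⟪p.1, p.2⟫|) (by fun_prop)
      exact ⟨|⟪p.1, p.2⟫|, abs_pos.mpr (C.orth i _ hp.1 _ hp.2),
        fun x hx y hy => hmin (a := (x, y)) ⟨hx, hy⟩⟩
    · exact ⟨1, one_pos, fun x hx => absurd ⟨x, hx⟩ hne⟩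
  choose ε hε h using h
  cases isEmpty_or_nonempty ι with
  | inl _ => exact ⟨1, one_pos, fun i => isEmptyElim i⟩
  | inr _ =>
    obtain ⟨j, hj⟩ := Finite.exists_min ε
    exact ⟨ε j, hε j, fun i x hx y hy => (hj i).trans (h i x hx y hy)⟩

/-- Small simplices on a sphere have a common colour point. -/
theorem Cover.exists_lebesgue [Finite ι] [Nonempty ι] (W : Submodule ℝ E) :
    ∃ δ > 0, ∀ x ∈ W, ‖x‖ = 1 → ∃ z ∈ W, ‖z‖ = 1 ∧
      ∀ y, ‖y‖ = 1 → dist x y ≤ δ → z ∈ C.F (C.c y) := by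
  have hS : IsCompact ((W : Set E) ∩ Metric.sphere 0 1) :=
    (isCompact_sphere (0 : E) 1).inter_left W.closed_of_finiteDimensional
  obtain ⟨δ, hδ, h⟩ := lebesgue_closed hS C.F C.closed
  refine ⟨δ, hδ, fun x hx hx1 => ?_⟩
  obtain ⟨z, hz, hz'⟩ := h x ⟨hx, by simpa using hx1⟩
  exact ⟨z, hz.1, by simpa using hz.2, fun y hy hxy => hz' _ ⟨y, C.c_mem hy, hxy⟩⟩

/-- A subspace of dimension at least `n` has a point with `n` colours. -/
theorem exists_colours [Finite ι] (W : Submodule ℝ E) (n : ℕ) (hn : n ≤ finrank ℝ W) :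
    ∃ x ∈ W, ∃ σ : Finset ι, σ.card = n ∧ ∀ i ∈ σ, x ∈ C.F i := by
  classical
  rcases n with _ | n
  · exact ⟨0, W.zero_mem, ∅, rfl, by simp⟩
  obtain ⟨e, -, he⟩ := exists_unit_mem W (by omega)
  have : Nonempty ι := ⟨(C.cover e he).choose⟩
  obtain ⟨ε, hε, hgap⟩ := C.exists_gap
  obtain ⟨δ, hδ, hleb⟩ := C.exists_lebesgue W
  obtain ⟨L, hL1, -, hL3⟩ := exists_hemisphere W n hn (lt_min hδ (half_pos hε))
  let lab : E → ι × Set E := fun x => (C.c x, {z | z ∈ C.F (C.c x) ∧ 0 < ⟪x, z⟫})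
  let ν : ι × Set E → ι × Set E := fun p => (p.1, {z | -z ∈ p.2})
  have hclose : ∀ x y : E, ‖x‖ = 1 → ‖y‖ = 1 → dist x y ≤ ε / 2 → C.c x = C.c y →
      ∀ z ∈ C.F (C.c x), 0 < ⟪x, z⟫ → 0 < ⟪y, z⟫ := by
    intro x y hx hy hxy _ z hz hpos
    have h1 := hgap _ x (C.c_mem hx) z hz
    rw [abs_of_pos hpos] at h1
    have h2 : |⟪x - y, z⟫| ≤ ε / 2 := by
      refine (abs_real_inner_le_norm _ _).trans ?_
      rw [C.unit _ z hz, mul_one, ← dist_eq_norm]
      exact hxy
    rw [inner_sub_left] at h2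
    linarith [(abs_le.mp h2).2]
  have hsame : ∀ x y : E, ‖x‖ = 1 → ‖y‖ = 1 → dist x y ≤ ε / 2 → C.c x = C.c y →
      lab x = lab y := by
    intro x y hx hy hxy hc
    refine Prod.ext hc ?_
    ext z
    constructor
    · rintro ⟨h1, h2⟩
      exact ⟨hc ▸ h1, hclose x y hx hy hxy hc z h1 h2⟩
    · rintro ⟨h1, h2⟩
      exact ⟨hc ▸ h1, hclose y x hy hx (by rwa [dist_comm]) hc.symm z h1 h2⟩
  obtain ⟨t, ht1, -, ht3⟩ := hL3 (ι × Set E) ν lab
    (fun p => by simp [ν])
    (fun x _ _ => by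
      refine Prod.ext (C.c_neg x) ?_
      ext z
      simp only [lab, ν, C.c_neg, Set.mem_ofPred_eq, inner_neg_left, inner_neg_right]
      constructor
      · rintro ⟨h1, h2⟩
        exact ⟨C.neg _ _ h1, h2⟩
      · rintro ⟨h1, h2⟩
        exact ⟨by simpa using C.neg _ _ h1, h2⟩)
    (fun x _ y _ hx hy hxy h => by
      have hc : C.c x = C.c y := (congrArg Prod.fst h).symm
      rw [← hsame x y hx hy (hxy.trans (min_le_right _ _)) hc] at h
      have h2 : x ∈ (lab x).2 := ⟨C.c_mem hx, by rw [real_inner_self_eq_norm_sq, hx]; norm_num⟩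
      rw [h] at h2
      have h3 : 0 < ⟪x, -x⟫ := h2.2
      rw [inner_neg_right, real_inner_self_eq_norm_sq, hx] at h3
      norm_num at h3)
  have hex : ∃ m, Small W (min δ (ε / 2)) (n + 1) m ∧ t (m.map lab) ≠ 0 := by
    by_contra hno
    push Not at hno
    rw [hL1 _ hno] at ht3
    exact zero_ne_one ht3
  obtain ⟨m, hm, hmt⟩ := hex
  have hnd := ht1 _ hmt
  have hnd2 : (m.map C.c).Nodup := by
    have hm' : m.Nodup := Multiset.Nodup.of_map _ hnd
    rw [Multiset.nodup_map_iff_inj_on hm'] at hnd ⊢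
    intro x hx y hy hc
    exact hnd x hx y hy (hsame x y (hm.2.1 x hx).2 (hm.2.1 y hy).2
      ((hm.2.2 x hx y hy).trans (min_le_right _ _)) hc)
  have hm0 : m ≠ 0 := by
    rintro rfl
    simpa using hm.1
  obtain ⟨x, hx⟩ := Multiset.exists_mem_of_ne_zero hm0
  obtain ⟨z, hz, -, hz'⟩ := hleb x (hm.2.1 x hx).1 (hm.2.1 x hx).2
  refine ⟨z, hz, ⟨m.map C.c, hnd2⟩, by simpa using hm.1, ?_⟩
  intro i hi
  obtain ⟨y, hy, rfl⟩ := Multiset.mem_map.mp hi
  exact hz' y (hm.2.1 y hy).2 ((hm.2.2 x hx y hy).trans (min_le_left _ _))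

end general

end Crest.Agent.R50
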