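import Crest.Agent.R50.Defs

/-! Mod-two cochains on unordered simplices, the prism operator and the abstract Ky Fan
cochains. -/

set_option autoImplicit false

namespace Crest.Agent.R50

theorem z2_add_self (a : ZMod 2) : a + a = 0 := by
  revert a; decide

section cob
variable {X Y : Type}

theorem mem_faces {m s : Multiset X} (h : s ∈ faces m) : ∃ x, m = x ::ₘ s := by
  classical
  rw [faces_eq, Multiset.mem_map] at h
  obtain ⟨x, hx, rfl⟩ := h
  exact ⟨x, (Multiset.cons_erase hx).symm⟩

theorem cob_congr {φ ψ : Multiset X → ZMod 2} {m : Multiset X}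
    (h : ∀ x s, m = x ::ₘ s → φ s = ψ s) : cob φ m = cob ψ m := by
  unfold cob
  congr 1
  apply Multiset.map_congr rfl
  intro s hs
  obtain ⟨x, hx⟩ := mem_faces hs
  exact h x s hx

theorem cob_add (φ ψ : Multiset X → ZMod 2) (m : Multiset X) :
    cob (fun s => φ s + ψ s) m = cob φ m + cob ψ m := by
  simp [cob, Multiset.sum_map_add]

theorem cob_const_mul (a : ZMod 2) (φ : Multiset X → ZMod 2) (m : Multiset X) :
    cob (fun s => a * φ s) m = a * cob φ m := by
  simp [cob, Multiset.sum_map_mul_left]

theorem cob_zero_fun (m : Multiset X) : cob (fun _ => (0 : ZMod 2)) m = 0 := by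
  simp [cob]

theorem cob_eq_zero {φ : Multiset X → ZMod 2} {m : Multiset X}
    (h : ∀ x s, m = x ::ₘ s → φ s = 0) : cob φ m = 0 := by
  rw [← cob_zero_fun m]
  exact cob_congr h

theorem cob_cob (φ : Multiset X → ZMod 2) (m : Multiset X) : cob (cob φ) m = 0 := by
  induction m using Multiset.induction_on generalizing φ with
  | empty => simp
  | cons a m ih =>
    rw [cob_cons]
    have : (fun s => cob φ (a ::ₘ s)) = fun s => φ s + cob (fun s => φ (a ::ₘ s)) s := by
      funext s
      exact cob_cons φ a s
    rw [this, cob_add, ih, add_zero, z2_add_self]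

theorem cob_map (f : X → Y) (φ : Multiset Y → ZMod 2) (m : Multiset X) :
    cob (fun s => φ (s.map f)) m = cob φ (m.map f) := by
  induction m using Multiset.induction_on generalizing φ with
  | empty => simp
  | cons a m ih =>
    rw [Multiset.map_cons, cob_cons, cob_cons, ← ih]
    simp

theorem cob_sum {ι : Type} (s : Finset ι) (φ : ι → Multiset X → ZMod 2) (m : Multiset X) :
    cob (fun u => ∑ i ∈ s, φ i u) m = ∑ i ∈ s, cob (φ i) m := by
  classical
  induction s using Finset.induction_on with
  | empty => simp [cob_zero_fun]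
  | insert i s hi ih => simp only [Finset.sum_insert hi, cob_add, ih]

/-- The coboundary as a linear map. -/
noncomputable def cobL (X : Type) : (Multiset X → ZMod 2) →ₗ[ZMod 2] (Multiset X → ZMod 2) where
  toFun := cob
  map_add' φ ψ := by funext m; exact cob_add φ ψ m
  map_smul' a φ := by funext m; exact cob_const_mul a φ m

/-- Pull-back of cochains along a map of simplices. -/
def pullL (f : Multiset X → Multiset Y) :
    (Multiset Y → ZMod 2) →ₗ[ZMod 2] (Multiset X → ZMod 2) where
  toFun φ := fun m => φ (f m)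
  map_add' _ _ := rfl
  map_smul' _ _ := rfl

/-- Evaluation of a cochain at a simplex. -/
def evalL (m : Multiset X) : (Multiset X → ZMod 2) →ₗ[ZMod 2] ZMod 2 where
  toFun φ := φ m
  map_add' _ _ := rfl
  map_smul' _ _ := rfl

/-- A chosen vertex. -/
noncomputable def pick [Nonempty X] (m : Multiset X) : X := Classical.epsilon fun x => x ∈ m

theorem pick_mem [Nonempty X] {m : Multiset X} (h : m ≠ 0) : pick m ∈ m :=
  Classical.epsilon_spec (Multiset.exists_mem_of_ne_zero h)

/-- The prism operator between two vertex maps, on cochains. -/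
noncomputable def prism [Nonempty X] (g₀ g₁ : X → Y) :
    ℕ → (Multiset Y → ZMod 2) →ₗ[ZMod 2] (Multiset X → ZMod 2)
  | 0 => 0
  | k + 1 => LinearMap.pi fun m =>
      evalL (g₀ (pick m) ::ₘ m.map g₀) + evalL (g₀ (pick m) ::ₘ m.map g₁) +
        evalL m ∘ₗ cobL X ∘ₗ prism g₀ g₁ k ∘ₗ pullL (fun s => g₀ (pick m) ::ₘ s)

theorem prism_succ [Nonempty X] (g₀ g₁ : X → Y) (k : ℕ) (ψ : Multiset Y → ZMod 2)
    (m : Multiset X) :
    prism g₀ g₁ (k + 1) ψ m = ψ (g₀ (pick m) ::ₘ m.map g₀) + ψ (g₀ (pick m) ::ₘ m.map g₁) +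
      cob (prism g₀ g₁ k (fun s => ψ (g₀ (pick m) ::ₘ s))) m := rfl

theorem prism_cob [Nonempty X] (g₀ g₁ : X → Y) (k : ℕ) (ψ : Multiset Y → ZMod 2)
    (m : Multiset X) (hm : m.card = k) :
    prism g₀ g₁ k (cob ψ) m = ψ (m.map g₀) + ψ (m.map g₁) + cob (prism g₀ g₁ (k - 1) ψ) m := by
  induction k generalizing ψ m with
  | zero =>
    rw [Multiset.card_eq_zero] at hm
    subst hm
    simp [prism, z2_add_self]
  | succ k ih =>
    rw [prism_succ, cob_cons, cob_cons]
    set b := g₀ (pick m)
    have h1 : (fun s => cob ψ (b ::ₘ s)) = ψ + cob (fun s => ψ (b ::ₘ s)) := by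
      funext s
      exact cob_cons ψ b s
    rw [h1, map_add]
    have h2 : cob (prism g₀ g₁ k ψ + prism g₀ g₁ k (cob fun s => ψ (b ::ₘ s))) m =
        cob (prism g₀ g₁ k ψ) m + cob (prism g₀ g₁ k (cob fun s => ψ (b ::ₘ s))) m :=
      cob_add _ _ m
    have h3 : cob (prism g₀ g₁ k (cob fun s => ψ (b ::ₘ s))) m =
        cob (fun s => ψ (b ::ₘ s.map g₀) + ψ (b ::ₘ s.map g₁) +
          cob (prism g₀ g₁ (k - 1) (fun s => ψ (b ::ₘ s))) s) m := by
      apply cob_congr
      intro x s hs
      apply ih
      rw [hs, Multiset.card_cons] at hm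
      omega
    rw [h2, h3, cob_add, cob_add, cob_cob, cob_map g₀ (fun s => ψ (b ::ₘ s)),
      cob_map g₁ (fun s => ψ (b ::ₘ s))]
    simp only [Nat.add_sub_cancel]
    generalize cob (fun s => ψ (b ::ₘ s)) (m.map g₀) = p
    generalize cob (fun s => ψ (b ::ₘ s)) (m.map g₁) = q
    have hp := z2_add_self p
    have hq := z2_add_self q
    linear_combination hp + hq

theorem prism_eq_zero [Nonempty X] (g₀ g₁ : X → Y) (k : ℕ) (ψ : Multiset Y → ZMod 2)
    (m : Multiset X) (hm : m.card = k)
    (hψ : ∀ M : Multiset Y, M.card = k + 1 → (∀ y ∈ M, ∃ x ∈ m, y = g₀ x ∨ y = g₁ x) →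
      ψ M = 0) : prism g₀ g₁ k ψ m = 0 := by
  induction k generalizing ψ m with
  | zero => simp [prism]
  | succ k ih =>
    have hm0 : m ≠ 0 := by
      rintro rfl
      simp at hm
    have hb := pick_mem hm0
    rw [prism_succ, hψ, hψ, cob_eq_zero]
    · simp
    · intro x s hs
      apply ih
      · rw [hs, Multiset.card_cons] at hm
        omega
      · intro M hM hM'
        apply hψ
        · simp [hM]
        · intro y hy
          rcases Multiset.mem_cons.mp hy with rfl | hy
          · exact ⟨_, hb, Or.inl rfl⟩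
          · obtain ⟨x', hx', h⟩ := hM' y hy
            exact ⟨x', by rw [hs]; exact Multiset.mem_cons_of_mem hx', h⟩
    · simp [hm]
    · intro y hy
      rcases Multiset.mem_cons.mp hy with rfl | hy
      · exact ⟨_, hb, Or.inl rfl⟩
      · obtain ⟨x', hx', rfl⟩ := Multiset.mem_map.mp hy
        exact ⟨x', hx', Or.inr rfl⟩
    · simp [hm]
    · intro y hy
      rcases Multiset.mem_cons.mp hy with rfl | hy
      · exact ⟨_, hb, Or.inl rfl⟩
      · obtain ⟨x', hx', rfl⟩ := Multiset.mem_map.mp hy
        exact ⟨x', hx', Or.inl rfl⟩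

/-- The coboundary of a normalised cochain is normalised. -/
theorem nodup_of_cob_ne_zero {φ : Multiset X → ZMod 2} (hφ : ∀ M, φ M ≠ 0 → M.Nodup)
    (M : Multiset X) (h : cob φ M ≠ 0) : M.Nodup := by
  by_contra hM
  rw [Multiset.nodup_iff_ne_cons_cons] at hM
  push Not at hM
  obtain ⟨a, s, rfl⟩ := hM
  apply h
  rw [cob_cons, cob_cons, ← add_assoc, z2_add_self, zero_add]
  apply cob_eq_zero
  intro x u _
  by_contra hne
  have := hφ _ hne
  simp at this

end cob

section kyfan
variable {Y : Type} (ν : Y → Y)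

/-- No complementary pair. -/
def Good (M : Multiset Y) : Prop := ∀ a ∈ M, ∀ b ∈ M, b ≠ ν a

open Classical in
/-- A fundamental domain for the involution on simplices. -/
noncomputable def chi (M : Multiset Y) : ZMod 2 :=
  if WellOrderingRel M (M.map ν) then 1 else 0

open Classical in
/-- The Ky Fan cochains. -/
noncomputable def kf : ℕ → Multiset Y → ZMod 2
  | 0 => fun M => if M.card = 1 then 1 else 0
  | n + 1 => cob fun M => chi ν M * kf n M

variable {ν}

theorem Good.of_cons {a : Y} {M : Multiset Y} (h : Good ν (a ::ₘ M)) : Good ν M :=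
  fun x hx y hy => h x (Multiset.mem_cons_of_mem hx) y (Multiset.mem_cons_of_mem hy)

theorem good_map (hν : Function.Involutive ν) {M : Multiset Y} (h : Good ν M) :
    Good ν (M.map ν) := by
  intro a ha b hb
  obtain ⟨a', ha', rfl⟩ := Multiset.mem_map.mp ha
  obtain ⟨b', hb', rfl⟩ := Multiset.mem_map.mp hb
  intro hab
  exact h a' ha' b' hb' (hν.injective hab)

theorem map_map_invol (hν : Function.Involutive ν) (M : Multiset Y) : (M.map ν).map ν = M := by
  rw [Multiset.map_map, hν.comp_self, Multiset.map_id]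

theorem chi_add (hν : Function.Involutive ν) {M : Multiset Y} (h : Good ν M) (h0 : M ≠ 0) :
    chi ν M + chi ν (M.map ν) = 1 := by
  have hne : M ≠ M.map ν := by
    intro hM
    obtain ⟨a, ha⟩ := Multiset.exists_mem_of_ne_zero h0
    have hb : ν a ∈ M.map ν := Multiset.mem_map_of_mem _ ha
    rw [← hM] at hb
    exact h a ha (ν a) hb rfl
  unfold chi
  rw [map_map_invol hν]
  rcases trichotomous_of WellOrderingRel M (M.map ν) with h1 | h1 | h1
  · rw [if_pos h1, if_neg (asymm h1), add_zero]
  · exact absurd h1 hne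
  · rw [if_pos h1, if_neg (asymm h1), zero_add]

theorem kf_card (n : ℕ) (M : Multiset Y) (h : kf ν n M ≠ 0) : M.card = n + 1 := by
  induction n generalizing M with
  | zero =>
    by_contra hc
    simp [kf, hc] at h
  | succ n ih =>
    by_contra hc
    apply h
    apply cob_eq_zero
    intro x s hs
    by_contra hne
    have := ih s (right_ne_zero_of_mul hne)
    rw [hs, Multiset.card_cons, this] at hc
    exact hc rfl

theorem kf_nodup (n : ℕ) (M : Multiset Y) (h : kf ν n M ≠ 0) : M.Nodup := by
  induction n generalizing M with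
  | zero =>
    have := kf_card 0 M h
    obtain ⟨a, rfl⟩ := Multiset.card_eq_one.mp this
    simp
  | succ n ih =>
    exact nodup_of_cob_ne_zero (fun M hM => ih M (right_ne_zero_of_mul hM)) M h

theorem cob_kf (n : ℕ) (M : Multiset Y) : cob (kf ν n) M = 0 := by
  cases n with
  | succ n => exact cob_cob _ M
  | zero =>
    by_cases hc : M.card = 2
    · obtain ⟨a, b, rfl⟩ := Multiset.card_eq_two.mp hc
      have : ({a, b} : Multiset Y) = a ::ₘ b ::ₘ 0 := rfl
      rw [this, cob_cons, cob_cons]
      simp [kf, z2_add_self]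
    · apply cob_eq_zero
      intro x s hs
      by_contra hne
      have := kf_card 0 s hne
      rw [hs, Multiset.card_cons, this] at hc
      exact hc rfl

theorem kf_map (hν : Function.Involutive ν) (n : ℕ) (M : Multiset Y) (h : Good ν M) :
    kf ν n (M.map ν) = kf ν n M := by
  induction n generalizing M with
  | zero => simp [kf]
  | succ n ih =>
    have h1 : kf ν (n + 1) (M.map ν) + kf ν (n + 1) M = cob (kf ν n) M := by
      simp only [kf]
      rw [← cob_map ν, ← cob_add]
      apply cob_congr
      intro x s hs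
      have hs' : Good ν s := by
        rw [hs] at h
        exact h.of_cons
      rw [ih s hs']
      by_cases h0 : s = 0
      · subst h0
        have : kf ν n 0 = 0 := by
          by_contra hne
          simpa using kf_card n 0 hne
        simp [this]
      · rw [← add_mul, add_comm, chi_add hν hs' h0, one_mul]
    rw [cob_kf] at h1
    have h2 := z2_add_self (kf ν (n + 1) M)
    linear_combination h1 - h2

theorem chi_kf_add (hν : Function.Involutive ν) (n : ℕ) (M : Multiset Y) (h : Good ν M)
    (h0 : M ≠ 0) :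
    chi ν M * kf ν n M + chi ν (M.map ν) * kf ν n (M.map ν) = kf ν n M := by
  rw [kf_map hν n M h, ← add_mul, chi_add hν h h0, one_mul]

end kyfan

end Crest.Agent.R50
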