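import Mathlib

/-! Basic definitions for result 50 (Borsuk's partition problem in dimension nine). -/

set_option autoImplicit false

open scoped RealInnerProductSpace

namespace Crest.Agent.R50

/-- Four-dimensional Euclidean space. -/
abbrev E4 : Type := EuclideanSpace ℝ (Fin 4)

/-- A closed symmetric cover of the unit sphere in which no class has two orthogonal vectors. -/
structure Cover (E : Type) [NormedAddCommGroup E] [InnerProductSpace ℝ E] (ι : Type) where
  F : ι → Set E
  closed : ∀ i, IsClosed (F i)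
  unit : ∀ i, ∀ x ∈ F i, ‖x‖ = 1
  neg : ∀ i, ∀ x ∈ F i, -x ∈ F i
  cover : ∀ x, ‖x‖ = 1 → ∃ i, x ∈ F i
  orth : ∀ i, ∀ x ∈ F i, ∀ y ∈ F i, ⟪x, y⟫ ≠ 0

namespace Cover

variable {E : Type} [NormedAddCommGroup E] [InnerProductSpace ℝ E] {ι : Type} (C : Cover E ι)

/-- The nerve: the classes in `σ` have a common point. -/
def K (σ : Finset ι) : Prop := ∃ x, ∀ i ∈ σ, x ∈ C.F i

/-- The colour `i` occurs on the subspace `V`. -/
def Sees (V : Submodule ℝ E) (i : ι) : Prop := ∃ x ∈ V, x ∈ C.F i

/-- A chosen (even) colouring. -/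
noncomputable def c [Nonempty ι] (x : E) : ι := Classical.epsilon fun i => x ∈ C.F i

theorem c_mem [Nonempty ι] {x : E} (hx : ‖x‖ = 1) : x ∈ C.F (C.c x) :=
  Classical.epsilon_spec (C.cover x hx)

theorem c_neg [Nonempty ι] (x : E) : C.c (-x) = C.c x := by
  unfold c
  congr 1
  funext i
  apply propext
  constructor
  · intro h
    simpa using C.neg i _ h
  · exact C.neg i _

theorem K_mono {σ τ : Finset ι} (h : σ ⊆ τ) (hτ : C.K τ) : C.K σ := by
  obtain ⟨x, hx⟩ := hτ
  exact ⟨x, fun i hi => hx i (h hi)⟩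

theorem not_sees_orth {V : Submodule ℝ E} {i : ι} (h : C.Sees V i) : ¬ C.Sees Vᗮ i := by
  rintro ⟨y, hy, hyi⟩
  obtain ⟨x, hx, hxi⟩ := h
  exact C.orth i x hxi y hyi (Submodule.inner_right_of_mem_orthogonal hx hy)

end Cover

/-- The codimension-one faces of an unordered simplex (with multiplicity). -/
noncomputable def faces {X : Type} (m : Multiset X) : Multiset (Multiset X) := by
  classical exact m.map fun x => m.erase x

theorem faces_eq {X : Type} [DecidableEq X] (m : Multiset X) :
    faces m = m.map fun x => m.erase x := by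
  unfold faces
  congr!

@[simp] theorem faces_zero {X : Type} : faces (0 : Multiset X) = 0 := by
  classical
  simp [faces_eq]

@[simp] theorem faces_cons {X : Type} (a : X) (m : Multiset X) :
    faces (a ::ₘ m) = m ::ₘ (faces m).map (fun s => a ::ₘ s) := by
  classical
  simp only [faces_eq, Multiset.map_cons, Multiset.erase_cons_head, Multiset.map_map]
  congr 1
  apply Multiset.map_congr rfl
  intro x hx
  simp [Multiset.erase_cons_tail_of_mem hx]

/-- Coboundary of a mod-two cochain on unordered simplices. -/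
noncomputable def cob {X : Type} (φ : Multiset X → ZMod 2) (m : Multiset X) : ZMod 2 :=
  ((faces m).map φ).sum

@[simp] theorem cob_zero {X : Type} (φ : Multiset X → ZMod 2) : cob φ 0 = 0 := by
  simp [cob]

theorem cob_cons {X : Type} (φ : Multiset X → ZMod 2) (a : X) (m : Multiset X) :
    cob φ (a ::ₘ m) = φ m + cob (fun s => φ (a ::ₘ s)) m := by
  simp [cob, Multiset.map_map]

theorem cob_eq {X : Type} [DecidableEq X] (φ : Multiset X → ZMod 2) (m : Multiset X) :
    cob φ m = (m.map fun x => φ (m.erase x)).sum := by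
  simp [cob, faces_eq, Multiset.map_map]

/-- `m` is a `δ`-small unordered simplex with `k` vertices on the unit sphere of `W`. -/
def Small {E : Type} [NormedAddCommGroup E] [InnerProductSpace ℝ E] (W : Submodule ℝ E) (δ : ℝ)
    (k : ℕ) (m : Multiset E) : Prop :=
  m.card = k ∧ (∀ x ∈ m, x ∈ W ∧ ‖x‖ = 1) ∧ ∀ x ∈ m, ∀ y ∈ m, dist x y ≤ δ

end Crest.Agent.R50
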