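import Crest.Agent.R50.Nerve

/-! The odd lift of the two-graph cocycle to the three-sphere. -/

set_option autoImplicit false

open scoped RealInnerProductSpace
open Module

namespace Crest.Agent.R50

theorem const_of_close {X : Type} [PseudoMetricSpace X] {S : Set X} (hS : IsPreconnected S)
    (g : X → ZMod 2) {δ : ℝ} (hδ : 0 < δ) (h : ∀ x ∈ S, ∀ y ∈ S, dist x y ≤ δ → g x = g y)
    {x y : X} (hx : x ∈ S) (hy : y ∈ S) : g x = g y := by
  refine hS.induction₂' (fun x y => g x = g y) (fun x hx => ?_)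
    (fun _ _ _ _ _ _ h1 h2 => h1.trans h2) hx hy
  filter_upwards [self_mem_nhdsWithin, mem_nhdsWithin_of_mem_nhds (Metric.ball_mem_nhds x hδ)]
    with y hy hxy
  have := h x hx y hy (by rw [dist_comm]; exact (Metric.mem_ball.mp hxy).le)
  exact ⟨this, this.symm⟩

theorem ladder {X : Type} (ω : X → X → ZMod 2) (p q : ℕ → X) (N : ℕ)
    (h1 : ∀ j < N, ω (p j) (p (j + 1)) + ω (p (j + 1)) (q (j + 1)) + ω (p j) (q (j + 1)) = 0)
    (h2 : ∀ j < N, ω (p j) (q j) + ω (q j) (q (j + 1)) + ω (p j) (q (j + 1)) = 0) :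
    ∑ j ∈ Finset.range N, ω (p j) (p (j + 1)) + ∑ j ∈ Finset.range N, ω (q j) (q (j + 1)) =
      ω (p 0) (q 0) + ω (p N) (q N) := by
  induction N with
  | zero => simp [z2_add_self]
  | succ N ih =>
    have a1 := ih (fun j hj => h1 j (by omega)) (fun j hj => h2 j (by omega))
    have a2 := h1 N (by omega)
    have a3 := h2 N (by omega)
    rw [Finset.sum_range_succ, Finset.sum_range_succ]
    grind

section norm
variable {E : Type} [NormedAddCommGroup E] [InnerProductSpace ℝ E]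

/-- Normalisation of a vector. -/
noncomputable def nrm (v : E) : E := ‖v‖⁻¹ • v

theorem norm_nrm {v : E} (h : 1 / 2 ≤ ‖v‖) : ‖nrm v‖ = 1 := by
  rw [nrm, norm_smul, norm_inv, norm_norm, inv_mul_cancel₀ (by linarith)]

theorem nrm_unit {v : E} (h : ‖v‖ = 1) : nrm v = v := by
  simp [nrm, h]

theorem dist_nrm {a b : E} (ha : 1 / 2 ≤ ‖a‖) (hb : 1 / 2 ≤ ‖b‖) :
    dist (nrm a) (nrm b) ≤ 4 * dist a b := by
  rw [dist_eq_norm, dist_eq_norm]
  have ha0 : 0 < ‖a‖ := by linarith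
  have hb0 : 0 < ‖b‖ := by linarith
  have h1 : nrm a - nrm b = ‖a‖⁻¹ • (a - b) + (‖a‖⁻¹ * (‖b‖ - ‖a‖)) • nrm b := by
    have : ‖a‖⁻¹ * (‖b‖ - ‖a‖) * ‖b‖⁻¹ = ‖a‖⁻¹ - ‖b‖⁻¹ := by field_simp
    simp only [nrm, smul_smul, this]
    module
  have h2 : ‖a‖⁻¹ ≤ 2 := by
    rw [inv_le_comm₀ ha0 (by norm_num)]
    linarith
  have h3 : |‖b‖ - ‖a‖| ≤ ‖a - b‖ := by
    rw [abs_sub_comm]
    exact abs_norm_sub_norm_le a b
  rw [h1]
  refine (norm_add_le _ _).trans ?_
  rw [norm_smul, norm_smul, norm_nrm hb, norm_inv, norm_norm, mul_one, Real.norm_eq_abs, abs_mul,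
    abs_of_pos (inv_pos.mpr ha0)]
  have h4 : 0 ≤ ‖a‖⁻¹ := by positivity
  nlinarith [norm_nonneg (a - b), abs_nonneg (‖b‖ - ‖a‖)]

/-- The straight segment towards `e`. -/
def seg (e : E) (s : ℝ) (x : E) : E := (1 - s) • x + s • e

theorem norm_seg {e x : E} (he : ‖e‖ = 1) (hx : ‖x‖ = 1) (h : 0 ≤ ⟪e, x⟫) {s : ℝ} (h0 : 0 ≤ s)
    (h1 : s ≤ 1) : 1 / 2 ≤ ‖seg e s x‖ := by
  have h2 : ‖seg e s x‖ ^ 2 = (1 - s) ^ 2 + 2 * ((1 - s) * s * ⟪e, x⟫) + s ^ 2 := by
    rw [seg, norm_add_sq_real, inner_smul_left, inner_smul_right, norm_smul, norm_smul, he, hx,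
      real_inner_comm]
    simp [mul_assoc]
  have h3 : 0 ≤ (1 - s) * s * ⟪e, x⟫ := mul_nonneg (mul_nonneg (by linarith) h0) h
  by_contra hlt
  push Not at hlt
  nlinarith [norm_nonneg (seg e s x), sq_nonneg (1 - 2 * s)]

theorem dist_seg {e x y : E} (he : ‖e‖ = 1) (hy : ‖y‖ = 1) {s : ℝ} (h0 : 0 ≤ s) (h1 : s ≤ 1)
    (t : ℝ) : dist (seg e s x) (seg e t y) ≤ dist x y + 2 * |s - t| := by
  rw [dist_eq_norm, dist_eq_norm]
  have : seg e s x - seg e t y = (1 - s) • (x - y) + (t - s) • y + (s - t) • e := by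
    unfold seg
    module
  rw [this]
  have a1 : ‖(1 - s) • (x - y)‖ ≤ ‖x - y‖ := by
    rw [norm_smul, Real.norm_eq_abs, abs_of_nonneg (by linarith)]
    nlinarith [norm_nonneg (x - y)]
  have a2 : ‖(t - s) • y‖ = |s - t| := by rw [norm_smul, hy, mul_one, Real.norm_eq_abs, abs_sub_comm]
  have a3 : ‖(s - t) • e‖ = |s - t| := by rw [norm_smul, he, mul_one, Real.norm_eq_abs]
  have a4 := norm_add₃_le (a := (1 - s) • (x - y)) (b := (t - s) • y) (c := (s - t) • e)
  linarith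

/-- A local cocycle is a coboundary on a closed hemisphere. -/
theorem exists_eta_half (e : E) (he : ‖e‖ = 1) (ω : E → E → ZMod 2) (hω0 : ω e e = 0) {δ : ℝ}
    (hδ : 0 < δ) (hω : ∀ x y z, ‖x‖ = 1 → ‖y‖ = 1 → ‖z‖ = 1 → dist x y ≤ δ → dist x z ≤ δ →
      ω x y + ω y z + ω x z = 0) :
    ∃ η : E → ZMod 2, ∀ x y, ‖x‖ = 1 → ‖y‖ = 1 → 0 ≤ ⟪e, x⟫ → 0 ≤ ⟪e, y⟫ → dist x y ≤ δ / 8 →
      η x + η y = ω x y := by
  obtain ⟨N, hN⟩ := exists_nat_gt (16 / δ)
  have hN0 : (0 : ℝ) < N := lt_trans (by positivity) hN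
  let H : E → ℕ → E := fun x j => nrm (seg e (j / N) x)
  refine ⟨fun x => ∑ j ∈ Finset.range N, ω (H x j) (H x (j + 1)), ?_⟩
  intro x y hx hy hx' hy' hxy
  have hs : ∀ j ≤ N, (0 : ℝ) ≤ j / N ∧ (j : ℝ) / N ≤ 1 := fun j hj =>
    ⟨by positivity, (div_le_one hN0).mpr (by exact_mod_cast hj)⟩
  have hn : ∀ u, ‖u‖ = 1 → 0 ≤ ⟪e, u⟫ → ∀ j ≤ N, ‖H u j‖ = 1 := fun u hu hu' j hj =>
    norm_nrm (norm_seg he hu hu' (hs j hj).1 (hs j hj).2)
  have hd : ∀ u v, ‖u‖ = 1 → 0 ≤ ⟪e, u⟫ → ‖v‖ = 1 → 0 ≤ ⟪e, v⟫ → dist u v ≤ δ / 8 →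
      ∀ j < N, ∀ k, (k = j ∨ k = j + 1) → dist (H u j) (H v k) ≤ δ := by
    intro u v hu hu' hv hv' huv j hj k hk
    have hk' : k ≤ N := by omega
    refine (dist_nrm (norm_seg he hu hu' (hs j hj.le).1 (hs j hj.le).2)
      (norm_seg he hv hv' (hs k hk').1 (hs k hk').2)).trans ?_
    have a1 := dist_seg (x := u) he hv (hs j hj.le).1 (hs j hj.le).2 (k / N)
    have a2 : |(j : ℝ) / N - k / N| ≤ 1 / N := by
      rw [← sub_div, abs_div, abs_of_pos hN0]
      apply div_le_div_of_nonneg_right _ hN0.le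
      rcases hk with rfl | rfl <;> simp
    have a3 : (1 : ℝ) / N ≤ δ / 16 := by
      rw [div_lt_iff₀ hδ] at hN
      rw [div_le_div_iff₀ hN0 (by norm_num)]
      nlinarith
    linarith
  have hδ8 : dist x x ≤ δ / 8 := by simp; positivity
  have key := ladder ω (H x) (H y) N
    (fun j hj => hω _ _ _ (hn x hx hx' j hj.le) (hn x hx hx' _ hj) (hn y hy hy' _ hj)
      (hd x x hx hx' hx hx' hδ8 j hj _ (Or.inr rfl)) (hd x y hx hx' hy hy' hxy j hj _ (Or.inr rfl)))
    (fun j hj => hω _ _ _ (hn x hx hx' j hj.le) (hn y hy hy' j hj.le) (hn y hy hy' _ hj)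
      (hd x y hx hx' hy hy' hxy j hj _ (Or.inl rfl)) (hd x y hx hx' hy hy' hxy j hj _ (Or.inr rfl)))
  have h0 : ∀ u, ‖u‖ = 1 → H u 0 = u := fun u hu => by simp [H, seg, nrm_unit hu]
  have h1 : ∀ u, H u N = e := fun u => by simp [H, seg, hN0.ne', nrm_unit he]
  rw [h0 x hx, h0 y hy, h1, h1, hω0, add_zero] at key
  exact key

/-- A point of the equator close to two close points on either side. -/
theorem exists_equator {e x y : E} (hx : ‖x‖ = 1) (hx' : 0 ≤ ⟪e, x⟫) (hy' : ⟪e, y⟫ < 0) {δ : ℝ}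
    (hδ : δ ≤ 1 / 2) (hxy : dist x y ≤ δ) :
    ∃ u, ‖u‖ = 1 ∧ ⟪e, u⟫ = 0 ∧ dist x u ≤ 4 * δ := by
  set s := ⟪e, x⟫ / (⟪e, x⟫ - ⟪e, y⟫) with hs
  have hpos : 0 < ⟪e, x⟫ - ⟪e, y⟫ := by linarith
  have hs0 : 0 ≤ s := div_nonneg hx' hpos.le
  have hs1 : s ≤ 1 := (div_le_one hpos).mpr (by linarith)
  set v := x + s • (y - x) with hv
  have h1 : dist x v ≤ δ := by
    rw [dist_comm, dist_eq_norm, hv, add_sub_cancel_left, norm_smul, Real.norm_eq_abs,
      abs_of_nonneg hs0, ← dist_eq_norm, dist_comm]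
    nlinarith [dist_nonneg (x := x) (y := y)]
  have h2 : 1 / 2 ≤ ‖v‖ := by
    have := abs_norm_sub_norm_le x v
    rw [← dist_eq_norm, hx] at this
    linarith [(abs_le.mp this).2]
  refine ⟨nrm v, norm_nrm h2, ?_, ?_⟩
  · rw [nrm, inner_smul_right, hv, inner_add_right, inner_smul_right, inner_sub_right, hs]
    field_simp
    simp
  · have := dist_nrm (a := x) (by rw [hx]; norm_num) h2
    rw [nrm_unit hx] at this
    linarith

end norm

theorem z2_aux1 : ∀ a b c d s : ZMod 2, a + b = s → c + d = s → a + c = b + d := by decide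

theorem z2_aux2 : ∀ a b c d p q s : ZMod 2, a + b = p → c + d = q → b + d = 1 → s + q + p = 0 →
    a + (c + 1) = s := by decide

theorem exists_hex (w : Fin 10 → Fin 10 → ZMod 2) (hw0 : ∀ i, w i i = 0)
    (hws : ∀ i j, w i j = w j i) (a b d : Fin 10) (hodd : w a b + w b d + w a d = 1) :
    ∃ hex : Fin 10 → Fin 10 → ZMod 2,
      (∀ i i' j j', (i = a ∨ i = b ∨ i = d) → (i' = a ∨ i' = b ∨ i' = d) →
        (j = a ∨ j = b ∨ j = d) → (j' = a ∨ j' = b ∨ j' = d) → i ≠ j → i' ≠ j' → i ≠ j' →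
        i' ≠ j → w i i' + w j j' = hex i j + hex i' j') ∧
      ∀ i j, (i = a ∨ i = b ∨ i = d) → (j = a ∨ j = b ∨ j = d) → i ≠ j →
        hex i j + hex j i = 1 := by
  have f1 := hw0 a
  have f2 := hw0 b
  have f3 := hw0 d
  have f4 := hws a b
  have f5 := hws a d
  have f6 := hws b d
  have hab : a ≠ b := by
    rintro rfl
    grind
  have had : a ≠ d := by
    rintro rfl
    grind
  have hbd : b ≠ d := by
    rintro rfl
    grind
  refine ⟨fun i j => w a i + w a j + if i = b ∨ j = d then 1 else 0, ?_, ?_⟩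
  · intro i i' j j' h1 h2 h3 h4 n1 n2 n3 n4
    rcases h1 with h1 | h1 | h1 <;> rcases h2 with h2 | h2 | h2 <;>
      rcases h3 with h3 | h3 | h3 <;> rcases h4 with h4 | h4 | h4 <;> grind
  · intro i j h1 h2 n1
    rcases h1 with h1 | h1 | h1 <;> rcases h2 with h2 | h2 | h2 <;> grind

variable (C : Cover E4 (Fin 10))

/-- Odd lift of the two-graph cocycle to the three-sphere. -/
theorem exists_eta (w : Fin 10 → Fin 10 → ZMod 2) (hw0 : ∀ i, w i i = 0)
    (hws : ∀ i j, w i j = w j i)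
    (hw : ∀ i j k, C.K {i, j, k} → w i j + w j k + w i k = 0)
    (a b d : Fin 10) (hodd : w a b + w b d + w a d = 1)
    (V : Submodule ℝ E4) (hV : 2 ≤ finrank ℝ V)
    (hVc : ∀ i, C.Sees V i → i = a ∨ i = b ∨ i = d) :
    ∃ η : E4 → ZMod 2, ∃ δ > 0, (∀ x, ‖x‖ = 1 → η (-x) = η x + 1) ∧
      ∀ x y, ‖x‖ = 1 → ‖y‖ = 1 → dist x y ≤ δ → η x + η y = w (C.c x) (C.c y) := by
  classical
  obtain ⟨δ, hδ, hleb⟩ := C.exists_lebesgue ⊤
  obtain ⟨ε, hε, hgap⟩ := C.exists_gap
  obtain ⟨e, heV, he⟩ := exists_unit_mem V (by omega)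
  have hfin := finrank_inf_orth V e
  obtain ⟨e', ⟨he'V, hee'⟩, he'⟩ := exists_unit_mem (V ⊓ (ℝ ∙ e)ᗮ) (by omega)
  have horth : ⟪e, e'⟫ = 0 := Submodule.mem_orthogonal_singleton_iff_inner_right.mp hee'
  have hω : ∀ x y z : E4, ‖x‖ = 1 → ‖y‖ = 1 → ‖z‖ = 1 → dist x y ≤ δ → dist x z ≤ δ →
      w (C.c x) (C.c y) + w (C.c y) (C.c z) + w (C.c x) (C.c z) = 0 := by
    intro x y z hx hy hz hxy hxz
    obtain ⟨u, -, -, hu⟩ := hleb x trivial hx
    apply hw
    refine ⟨u, fun i hi => ?_⟩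
    simp only [Finset.mem_insert, Finset.mem_singleton] at hi
    rcases hi with rfl | rfl | rfl
    exacts [hu x hx (by simp [hδ.le]), hu y hy hxy, hu z hz hxz]
  obtain ⟨η, hη⟩ := exists_eta_half e he (fun x y => w (C.c x) (C.c y)) (hw0 _) hδ hω
  -- the holonomy along the half circle in `V`
  have hκ : η e' + η (-e') = 1 := by
    let y : ℝ → E4 := fun t => rot e t e'
    have hy1 : ∀ t, ‖y t‖ = 1 := fun t => norm_rot he he' horth t
    have hyc : ∀ t, C.c (y t) = a ∨ C.c (y t) = b ∨ C.c (y t) = d := fun t =>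
      hVc _ ⟨y t, V.add_mem (V.smul_mem _ he'V) (V.smul_mem _ heV), C.c_mem (hy1 t)⟩
    have hye : ∀ t, 0 ≤ t → t ≤ Real.pi → 0 ≤ ⟪e, y t⟫ := by
      intro t h0 h1
      simp only [y, rot, inner_add_right, inner_smul_right, horth, real_inner_self_eq_norm_sq, he]
      simpa using Real.sin_nonneg_of_nonneg_of_le_pi h0 h1
    have hyd : ∀ s t, dist (y s) (y t) ≤ 2 * |s - t| := fun s t => by
      simpa using dist_rot (x := e') he he' s t
    have hyo : ∀ t, ⟪y t, y (t + Real.pi / 2)⟫ = 0 := by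
      intro t
      simp only [y, rot, inner_add_right, inner_add_left, inner_smul_right, inner_smul_left, horth,
        real_inner_self_eq_norm_sq, he, he', real_inner_comm e e', Real.cos_add_pi_div_two,
        Real.sin_add_pi_div_two]
      simp
      ring
    have hne : ∀ s t, |s - t| ≤ ε / 4 → C.c (y s) ≠ C.c (y (t + Real.pi / 2)) := by
      intro s t hst h
      have h0 : y (t + Real.pi / 2) ∈ C.F (C.c (y s)) := by
        rw [h]
        exact C.c_mem (hy1 _)
      have h1 := hgap _ _ (C.c_mem (hy1 s)) _ h0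
      have h2 : ⟪y s, y (t + Real.pi / 2)⟫ = ⟪y s - y t, y (t + Real.pi / 2)⟫ := by
        rw [inner_sub_left, hyo, sub_zero]
      have h3 := abs_real_inner_le_norm (y s - y t) (y (t + Real.pi / 2))
      rw [← h2, hy1, mul_one, ← dist_eq_norm] at h3
      linarith [hyd s t]
    obtain ⟨hex, hex1, hex2⟩ := exists_hex w hw0 hws a b d hodd
    have hc := const_of_close (isPreconnected_Icc (a := (0 : ℝ)) (b := Real.pi / 2))
      (fun t => η (y t) + η (y (t + Real.pi / 2)) + hex (C.c (y t)) (C.c (y (t + Real.pi / 2))))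
      (δ := min (δ / 16) (ε / 4)) (by positivity) (by
        intro s hs t ht hst
        rw [Real.dist_eq] at hst
        have b1 : |s - t| ≤ δ / 16 := hst.trans (min_le_left _ _)
        have b2 : |s - t| ≤ ε / 4 := hst.trans (min_le_right _ _)
        have hpi := Real.pi_pos
        have c1 := hη (y s) (y t) (hy1 _) (hy1 _) (hye s hs.1 (by linarith [hs.2]))
          (hye t ht.1 (by linarith [ht.2])) (by linarith [hyd s t])
        have c2 := hη (y (s + Real.pi / 2)) (y (t + Real.pi / 2)) (hy1 _) (hy1 _)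
          (hye _ (by linarith [hs.1]) (by linarith [hs.2]))
          (hye _ (by linarith [ht.1]) (by linarith [ht.2]))
          (by have := hyd (s + Real.pi / 2) (t + Real.pi / 2)
              rw [add_sub_add_right_eq_sub] at this
              linarith)
        have n1 := hne s s (by simp; positivity)
        have n2 := hne t t (by simp; positivity)
        have n3 := hne s t b2
        have n4 := hne t s (by rwa [abs_sub_comm])
        have key := hex1 _ _ _ _ (hyc s) (hyc t) (hyc _) (hyc _) n1 n2 n3 n4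
        have z1 := z2_add_self (η (y t))
        have z2 := z2_add_self (η (y (t + Real.pi / 2)))
        have z3 := z2_add_self (hex (C.c (y t)) (C.c (y (t + Real.pi / 2))))
        have z4 := z2_add_self (hex (C.c (y s)) (C.c (y (s + Real.pi / 2))))
        linear_combination c1 + c2 + key - z1 - z2 + z4)
      (x := 0) (y := Real.pi / 2) ⟨le_rfl, by positivity⟩ ⟨by positivity, le_rfl⟩
    have y0 : y 0 = e' := by simp [y, rot]
    have y1 : y (Real.pi / 2 + Real.pi / 2) = -e' := by simp [y, rot]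
    simp only [zero_add, y0, y1, C.c_neg] at hc
    have n1 := hne 0 0 (by simp; positivity)
    have g1 := hyc 0
    have g2 := hyc (Real.pi / 2)
    rw [zero_add] at n1
    rw [y0] at n1 g1
    have key := hex2 _ _ g1 g2 n1
    have z1 := z2_add_self (η (-e'))
    have z2 := z2_add_self (hex (C.c e') (C.c (y (Real.pi / 2))))
    linear_combination hc + key + z1 - z2
  -- the holonomy on the whole equator
  have hequ : ∀ u, ‖u‖ = 1 → ⟪e, u⟫ = 0 → η u + η (-u) = 1 := by
    intro u hu hu'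
    have hrank : 1 < Module.rank ℝ (ℝ ∙ e)ᗮ := by
      have := three_le_finrank_orth e
      rw [← finrank_eq_rank]
      exact_mod_cast (by omega : 1 < finrank ℝ (ℝ ∙ e)ᗮ)
    have := const_of_close (isPreconnected_sphere hrank 0 1)
      (fun v => η v + η (-v)) (δ := δ / 8) (by positivity) (by
        intro x hx y hy hxy
        have hx1 : ‖(x : E4)‖ = 1 := by simpa using hx
        have hy1 : ‖(y : E4)‖ = 1 := by simpa using hy
        have hx2 : ⟪e, (x : E4)⟫ = 0 := Submodule.mem_orthogonal_singleton_iff_inner_right.mp x.2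
        have hy2 : ⟪e, (y : E4)⟫ = 0 := Submodule.mem_orthogonal_singleton_iff_inner_right.mp y.2
        have c1 := hη x y hx1 hy1 hx2.ge hy2.ge hxy
        have c2 := hη (-x) (-y) (by simpa using hx1) (by simpa using hy1)
          (by simp [inner_neg_right, hx2]) (by simp [inner_neg_right, hy2])
          (by rw [dist_neg_neg]; exact hxy)
        simp only [C.c_neg] at c1 c2
        exact z2_aux1 _ _ _ _ _ c1 c2)
      (x := ⟨u, Submodule.mem_orthogonal_singleton_iff_inner_right.mpr hu'⟩) (y := ⟨e', hee'⟩)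
      (by simpa using hu) (by simpa using he')
    exact this.trans hκ
  have hcross : ∀ x y : E4, ‖x‖ = 1 → ‖y‖ = 1 → 0 ≤ ⟪e, x⟫ → ⟪e, y⟫ < 0 →
      dist x y ≤ min (δ / 40) (1 / 2) → η x + (η (-y) + 1) = w (C.c x) (C.c y) := by
    intro x y hx hy hx' hy' hxy
    obtain ⟨u, hu, hu', hxu⟩ := exists_equator hx hx' hy' (min_le_right _ _) hxy
    have b1 := min_le_left (δ / 40) (1 / 2)
    have c1 := hη x u hx hu hx' hu'.ge (by linarith)
    have c2 := hη (-y) (-u) (by simpa using hy) (by simpa using hu)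
      (by rw [inner_neg_right]; linarith) (by simp [inner_neg_right, hu'])
      (by
        rw [dist_neg_neg]
        have := dist_triangle_left y u x
        linarith)
    have c3 := hequ u hu hu'
    have c4 := hω x y u hx hy hu (by linarith) (by linarith)
    simp only [C.c_neg] at c1 c2
    exact z2_aux2 _ _ _ _ _ _ _ c1 c2 c3 c4
  refine ⟨fun x => if 0 ≤ ⟪e, x⟫ then η x else η (-x) + 1, min (δ / 40) (1 / 2), by positivity,
    ?_, ?_⟩
  · intro x hx
    simp only [inner_neg_right, neg_neg]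
    rcases lt_trichotomy ⟪e, x⟫ 0 with h | h | h
    · rw [if_pos (by linarith), if_neg (by linarith), add_assoc, z2_add_self, add_zero]
    · rw [if_pos (by linarith), if_pos (by linarith), ← hequ x hx h, ← add_assoc, z2_add_self,
        zero_add]
    · rw [if_neg (by linarith), if_pos (by linarith)]
  · intro x y hx hy hxy
    have b1 := min_le_left (δ / 40) (1 / 2)
    by_cases h1 : 0 ≤ ⟪e, x⟫ <;> by_cases h2 : 0 ≤ ⟪e, y⟫ <;> simp only [h1, h2, if_true, if_false]
    · exact hη x y hx hy h1 h2 (by linarith)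
    · exact hcross x y hx hy h1 (not_le.mp h2) hxy
    · rw [add_comm, hws]
      exact hcross y x hy hx h2 (not_le.mp h1) (by rwa [dist_comm])
    · have c2 := hη (-x) (-y) (by simpa using hx) (by simpa using hy)
        (by rw [inner_neg_right]; linarith) (by rw [inner_neg_right]; linarith)
        (by rw [dist_neg_neg]; linarith)
      simp only [C.c_neg] at c2
      rw [← c2]
      linear_combination z2_add_self 1

end Crest.Agent.R50
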