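import Mathlib

/-! The finite combinatorial contradiction. -/

set_option autoImplicit false

namespace Crest.Agent.R50

section
variable {K : Finset (Fin 10) → Prop} {w : Fin 10 → Fin 10 → ZMod 2}

theorem bal_of_base (hws : ∀ i j, w i j = w j i)
    (hK : ∀ σ, K σ ↔ ∀ i ∈ σ, ∀ j ∈ σ, ∀ k ∈ σ, w i j + w j k + w i k = 0)
    (σ : Finset (Fin 10)) (p : Fin 10) (h : ∀ i ∈ σ, ∀ j ∈ σ, w p i + w i j + w p j = 0) :
    K σ := by
  rw [hK]
  intro i hi j hj k hk
  have h1 := h i hi j hj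
  have h2 := h j hj k hk
  have h3 := h i hi k hk
  have := hws i j
  grind

theorem K_three (hw0 : ∀ i, w i i = 0) (hws : ∀ i j, w i j = w j i)
    (hK : ∀ σ, K σ ↔ ∀ i ∈ σ, ∀ j ∈ σ, ∀ k ∈ σ, w i j + w j k + w i k = 0) (x y z : Fin 10) :
    K {x, y, z} ↔ w x y + w y z + w x z = 0 := by
  refine ⟨fun h => (hK _).mp h x (by simp) y (by simp) z (by simp), fun h => ?_⟩
  apply bal_of_base hws hK _ x
  have h1 := hw0 x
  have h2 := hw0 y
  have h3 := hw0 z
  have h4 := hws x y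
  have h5 := hws x z
  have h6 := hws y z
  intro i hi j hj
  simp only [Finset.mem_insert, Finset.mem_singleton] at hi hj
  rcases hi with rfl | rfl | rfl <;> rcases hj with rfl | rfl | rfl <;> grind

theorem K_four (hw0 : ∀ i, w i i = 0) (hws : ∀ i j, w i j = w j i)
    (hK : ∀ σ, K σ ↔ ∀ i ∈ σ, ∀ j ∈ σ, ∀ k ∈ σ, w i j + w j k + w i k = 0) (x y z t : Fin 10) :
    K {x, y, z, t} ↔ w x y + w y z + w x z = 0 ∧ w x y + w y t + w x t = 0 ∧
      w x z + w z t + w x t = 0 := by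
  refine ⟨fun h => ⟨(hK _).mp h x (by simp) y (by simp) z (by simp),
    (hK _).mp h x (by simp) y (by simp) t (by simp),
    (hK _).mp h x (by simp) z (by simp) t (by simp)⟩, fun ⟨h, h', h''⟩ => ?_⟩
  apply bal_of_base hws hK _ x
  have h1 := hw0 x
  have h2 := hw0 y
  have h3 := hw0 z
  have h3' := hw0 t
  have h4 := hws x y
  have h5 := hws x z
  have h6 := hws y z
  have h7 := hws x t
  have h8 := hws y t
  have h9 := hws z t
  intro i hi j hj
  simp only [Finset.mem_insert, Finset.mem_singleton] at hi hj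
  rcases hi with rfl | rfl | rfl | rfl <;> rcases hj with rfl | rfl | rfl | rfl <;> grind

theorem final_core (hw0 : ∀ i, w i i = 0) (hws : ∀ i j, w i j = w j i)
    (hK : ∀ σ, K σ ↔ ∀ i ∈ σ, ∀ j ∈ σ, ∀ k ∈ σ, w i j + w j k + w i k = 0)
    (hthree : ∀ A B D, K A → K B → K D → A ∪ B ∪ D ≠ Finset.univ)
    (htight : ∀ ρ, ρ.card = 4 → K ρ → ∀ τ ⊆ ρᶜ, K τ ∨ K (ρᶜ \ τ))
    (r : K {0, 1, 2, 3}) (r0 : K {1, 2, 3, 4}) (r1 : K {0, 2, 3, 5}) (r2 : K {0, 1, 3, 6})
    (r3 : K {0, 1, 2, 7}) : False := by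
  have hx : ∀ (ρ : Finset (Fin 10)) (x y z x' y' z' : Fin 10), K ρ → ρ.card = 4 ∧
      {x, y, z} ⊆ ρᶜ ∧ ρᶜ \ {x, y, z} = {x', y', z'} ∧
      ρ ∪ {x, y, z} ∪ {x', y', z'} = Finset.univ →
      w x y + w y z + w x z + (w x' y' + w y' z' + w x' z') = 1 := by
    rintro ρ x y z x' y' z' hρ ⟨h1, h2, h3, h4⟩
    have h5 := htight ρ h1 hρ _ h2
    have h6 := fun a b => hthree ρ {x, y, z} {x', y', z'} hρ a b h4
    rw [h3] at h5
    rw [K_three hw0 hws hK, K_three hw0 hws hK] at h5 h6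
    revert h5 h6
    generalize w x y + w y z + w x z = s
    generalize w x' y' + w y' z' + w x' z' = t
    revert s t
    decide
  have hn : ∀ x y z t u v : Fin 10, ({0, 1, 2, 3} : Finset (Fin 10)) ∪ {x, y, z, t} ∪ {u, u, v} =
      Finset.univ → ¬ (w x y + w y z + w x z = 0 ∧ w x y + w y t + w x t = 0 ∧
      w x z + w z t + w x t = 0) := by
    intro x y z t u v h h'
    refine hthree _ _ _ r ((K_four hw0 hws hK x y z t).mpr h')
      ((K_three hw0 hws hK u u v).mpr ?_) h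
    have := hw0 u
    grind
  have a1 := hx _ 4 5 6 7 8 9 r (by decide)
  have a2 := hx _ 4 5 7 6 8 9 r (by decide)
  have a3 := hx _ 4 6 7 5 8 9 r (by decide)
  have a4 := hx _ 5 6 7 4 8 9 r (by decide)
  have a5 := hx _ 4 5 8 6 7 9 r (by decide)
  have b1 := hx _ 0 5 6 7 8 9 r0 (by decide)
  have b2 := hx _ 0 5 7 6 8 9 r0 (by decide)
  have c1 := hx _ 1 4 6 7 8 9 r1 (by decide)
  have c2 := hx _ 1 4 7 6 8 9 r1 (by decide)
  have d1 := hx _ 2 4 5 7 8 9 r2 (by decide)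
  have d2 := hx _ 2 4 7 5 8 9 r2 (by decide)
  have e1 := hx _ 3 4 5 6 8 9 r3 (by decide)
  have e2 := hx _ 3 4 6 5 8 9 r3 (by decide)
  have n1 := hn 4 5 6 7 8 9 (by decide)
  have n2 := hn 4 5 8 9 6 7 (by decide)
  have n3 := hn 6 7 8 9 4 5 (by decide)
  rw [K_four hw0 hws hK] at r r0 r1 r2 r3
  obtain ⟨f1, f2, f3⟩ := r
  obtain ⟨g1, g2, g3⟩ := r0
  obtain ⟨g4, g5, g6⟩ := r1
  obtain ⟨g7, g8, g9⟩ := r2
  obtain ⟨g10, g11, g12⟩ := r3
  have k1 : w 4 5 + w 5 7 + w 4 7 = w 4 5 + w 5 6 + w 4 6 := by grind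
  have k2 : w 4 6 + w 6 7 + w 4 7 = w 4 5 + w 5 6 + w 4 6 := by grind
  have k3 : w 5 6 + w 6 7 + w 5 7 = w 4 5 + w 5 6 + w 4 6 := by grind
  have hcases : ∀ s : ZMod 2, s = 0 ∨ s = 1 := by decide
  rcases hcases (w 4 5 + w 5 6 + w 4 6) with h | h
  · exact n1 ⟨h, by grind, by grind⟩
  · rcases hcases (w 4 5 + w 5 8 + w 4 8) with h' | h'
    · exact n2 ⟨h', by grind, by grind⟩
    · exact n3 ⟨by grind, by grind, by grind⟩

theorem star_ne (hws : ∀ i j, w i j = w j i)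
    (hK : ∀ σ, K σ ↔ ∀ i ∈ σ, ∀ j ∈ σ, ∀ k ∈ σ, w i j + w j k + w i k = 0)
    (hcard : ∀ σ, K σ → σ.card ≤ 4) {ρ : Finset (Fin 10)} (hρ : ρ.card = 4) (hρK : K ρ)
    {a a' p b : Fin 10} (hp : p ∈ ρ) (haa : a ≠ a') (hpa : p ≠ a) (hpa' : p ≠ a') (hb : b ∉ ρ)
    (h1 : K (insert b (ρ.erase a))) (h2 : K (insert b (ρ.erase a'))) : False := by
  have h5 : K (insert b ρ) := by
    apply bal_of_base hws hK _ p
    rw [hK] at hρK h1 h2
    have key : ∀ i ∈ insert b ρ, ∀ j ∈ insert b ρ, (i ∈ ρ ∧ j ∈ ρ) ∨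
        (i ∈ insert b (ρ.erase a) ∧ j ∈ insert b (ρ.erase a)) ∨
        (i ∈ insert b (ρ.erase a') ∧ j ∈ insert b (ρ.erase a')) := by
      intro i hi j hj
      simp only [Finset.mem_insert, Finset.mem_erase] at hi hj ⊢
      grind
    intro i hi j hj
    rcases key i hi j hj with h | h | h
    · exact hρK p hp i h.1 j h.2
    · exact h1 p (by simp [hp, hpa]) i h.1 j h.2
    · exact h2 p (by simp [hp, hpa']) i h.1 j h.2
  have := hcard _ h5
  rw [Finset.card_insert_of_notMem hb] at this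
  omega

end

/-- The finite combinatorial contradiction. -/
theorem final (K : Finset (Fin 10) → Prop) (w : Fin 10 → Fin 10 → ZMod 2) (hw0 : ∀ i, w i i = 0)
    (hws : ∀ i j, w i j = w j i)
    (hK : ∀ σ, K σ ↔ ∀ i ∈ σ, ∀ j ∈ σ, ∀ k ∈ σ, w i j + w j k + w i k = 0)
    (hcard : ∀ σ, K σ → σ.card ≤ 4)
    (hthree : ∀ A B D, K A → K B → K D → A ∪ B ∪ D ≠ Finset.univ)
    (htight : ∀ ρ, ρ.card = 4 → K ρ → ∀ τ ⊆ ρᶜ, K τ ∨ K (ρᶜ \ τ))
    (ρ : Finset (Fin 10)) (hρ : ρ.card = 4) (hρK : K ρ)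
    (hstar : ∀ a ∈ ρ, ∃ b ∉ ρ, K (insert b (ρ.erase a))) : False := by
  obtain ⟨a0, a1, a2, a3, h01, h02, h03, h12, h13, h23, hρe⟩ := Finset.card_eq_four.mp hρ
  have m0 : a0 ∈ ρ := by simp [hρe]
  have m1 : a1 ∈ ρ := by simp [hρe]
  have m2 : a2 ∈ ρ := by simp [hρe]
  have m3 : a3 ∈ ρ := by simp [hρe]
  obtain ⟨b0, n0, k0⟩ := hstar a0 m0
  obtain ⟨b1, n1, k1⟩ := hstar a1 m1
  obtain ⟨b2, n2, k2⟩ := hstar a2 m2
  obtain ⟨b3, n3, k3⟩ := hstar a3 m3
  have d01 : b0 ≠ b1 := by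
    rintro rfl
    exact star_ne hws hK hcard hρ hρK m2 h01 h02.symm h12.symm n0 k0 k1
  have d02 : b0 ≠ b2 := by
    rintro rfl
    exact star_ne hws hK hcard hρ hρK m1 h02 h01.symm h12 n0 k0 k2
  have d03 : b0 ≠ b3 := by
    rintro rfl
    exact star_ne hws hK hcard hρ hρK m1 h03 h01.symm h13 n0 k0 k3
  have d12 : b1 ≠ b2 := by
    rintro rfl
    exact star_ne hws hK hcard hρ hρK m0 h12 h01 h02 n1 k1 k2
  have d13 : b1 ≠ b3 := by
    rintro rfl
    exact star_ne hws hK hcard hρ hρK m0 h13 h01 h03 n1 k1 k3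
  have d23 : b2 ≠ b3 := by
    rintro rfl
    exact star_ne hws hK hcard hρ hρK m0 h23 h02 h03 n2 k2 k3
  have hB : ({b0, b1, b2, b3} : Finset (Fin 10)).card = 4 :=
    Finset.card_eq_four.mpr ⟨b0, b1, b2, b3, d01, d02, d03, d12, d13, d23, rfl⟩
  have hBs : ({b0, b1, b2, b3} : Finset (Fin 10)) ⊆ ρᶜ := by
    intro x hx
    simp only [Finset.mem_insert, Finset.mem_singleton] at hx
    rcases hx with rfl | rfl | rfl | rfl <;> simpa
  have hR : (ρᶜ \ {b0, b1, b2, b3}).card = 2 := by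
    rw [Finset.card_sdiff_of_subset hBs, Finset.card_compl, hB, hρ]
    rfl
  obtain ⟨u, v, -, huv⟩ := Finset.card_eq_two.mp hR
  let f : Fin 10 → Fin 10 := ![a0, a1, a2, a3, b0, b1, b2, b3, u, v]
  have hsurj : Function.Surjective f := by
    intro y
    by_cases hy : y ∈ ρ
    · rw [hρe] at hy
      simp only [Finset.mem_insert, Finset.mem_singleton] at hy
      rcases hy with rfl | rfl | rfl | rfl
      exacts [⟨0, rfl⟩, ⟨1, rfl⟩, ⟨2, rfl⟩, ⟨3, rfl⟩]
    by_cases hy' : y ∈ ({b0, b1, b2, b3} : Finset (Fin 10))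
    · simp only [Finset.mem_insert, Finset.mem_singleton] at hy'
      rcases hy' with rfl | rfl | rfl | rfl
      exacts [⟨4, rfl⟩, ⟨5, rfl⟩, ⟨6, rfl⟩, ⟨7, rfl⟩]
    · have : y ∈ ({u, v} : Finset (Fin 10)) := by
        rw [← huv, Finset.mem_sdiff, Finset.mem_compl]
        exact ⟨hy, hy'⟩
      simp only [Finset.mem_insert, Finset.mem_singleton] at this
      rcases this with rfl | rfl
      exacts [⟨8, rfl⟩, ⟨9, rfl⟩]
  let π : Fin 10 ≃ Fin 10 := Equiv.ofBijective f (Finite.surjective_iff_bijective.mp hsurj)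
  have hc : ∀ σ : Finset (Fin 10), σᶜ.map π.toEmbedding = (σ.map π.toEmbedding)ᶜ := by
    intro σ
    ext x
    simp [Finset.mem_map_equiv]
  have hπ : ∀ i, π.toEmbedding i = f i := fun i => rfl
  refine final_core (K := fun σ => K (σ.map π.toEmbedding)) (w := fun i j => w (π i) (π j))
    (fun i => hw0 _) (fun i j => hws _ _) (fun σ => ?_) ?_ ?_ ?_ ?_ ?_ ?_ ?_
  · simp only [hK, Finset.forall_mem_map]
    rfl
  · intro A B D hA hB hD h
    apply hthree _ _ _ hA hB hD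
    rw [← Finset.map_union, ← Finset.map_union, h, Finset.map_univ_equiv]
  · intro σ h1 h2 τ h3
    have := htight _ (by simpa using h1) h2 (τ.map π.toEmbedding)
      (by rw [← hc]; exact Finset.map_subset_map.mpr h3)
    simpa only [Finset.map_sdiff, hc] using this
  · simpa [hπ, f, ← hρe] using hρK
  · convert k0 using 1
    ext x
    simp only [Finset.map_insert, Finset.map_singleton, hπ, f, hρe, Finset.mem_insert,
      Finset.mem_singleton, Finset.mem_erase]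
    simp
    grind
  · convert k1 using 1
    ext x
    simp only [Finset.map_insert, Finset.map_singleton, hπ, f, hρe, Finset.mem_insert,
      Finset.mem_singleton, Finset.mem_erase]
    simp
    grind
  · convert k2 using 1
    ext x
    simp only [Finset.map_insert, Finset.map_singleton, hπ, f, hρe, Finset.mem_insert,
      Finset.mem_singleton, Finset.mem_erase]
    simp
    grind
  · convert k3 using 1
    ext x
    simp only [Finset.map_insert, Finset.map_singleton, hπ, f, hρe, Finset.mem_insert,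
      Finset.mem_singleton, Finset.mem_erase]
    simp
    grind

end Crest.Agent.R50
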