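import Crest.Agent.R50.Chain

/-! Fine hemisphere chains on spheres and the Ky Fan lemma. -/

set_option autoImplicit false

open scoped RealInnerProductSpace
open Module

namespace Crest.Agent.R50

variable {E : Type} [NormedAddCommGroup E] [InnerProductSpace ℝ E]

theorem Small.neg {W : Submodule ℝ E} {δ : ℝ} {k : ℕ} {m : Multiset E} (h : Small W δ k m) :
    Small W δ k (m.map Neg.neg) := by
  refine ⟨by simpa using h.1, ?_, ?_⟩
  · intro x hx
    obtain ⟨y, hy, rfl⟩ := Multiset.mem_map.mp hx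
    exact ⟨W.neg_mem (h.2.1 y hy).1, by simpa using (h.2.1 y hy).2⟩
  · intro x hx y hy
    obtain ⟨x', hx', rfl⟩ := Multiset.mem_map.mp hx
    obtain ⟨y', hy', rfl⟩ := Multiset.mem_map.mp hy
    simpa using h.2.2 x' hx' y' hy'

theorem Small.good {W : Submodule ℝ E} {δ : ℝ} {k : ℕ} {m : Multiset E} (h : Small W δ k m)
    {Y : Type} {ν : Y → Y} {lab : E → Y}
    (hl : ∀ x ∈ W, ∀ y ∈ W, ‖x‖ = 1 → ‖y‖ = 1 → dist x y ≤ δ → lab y ≠ ν (lab x)) :
    Good ν (m.map lab) := by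
  intro a ha b hb
  obtain ⟨x, hx, rfl⟩ := Multiset.mem_map.mp ha
  obtain ⟨y, hy, rfl⟩ := Multiset.mem_map.mp hb
  exact hl x (h.2.1 x hx).1 y (h.2.1 y hy).1 (h.2.1 x hx).2 (h.2.1 y hy).2 (h.2.2 x hx y hy)

theorem Small.map_lab_neg {W : Submodule ℝ E} {δ : ℝ} {k : ℕ} {m : Multiset E}
    (h : Small W δ k m) {Y : Type} {ν : Y → Y} {lab : E → Y}
    (hl : ∀ x ∈ W, ‖x‖ = 1 → lab (-x) = ν (lab x)) :
    (m.map Neg.neg).map lab = (m.map lab).map ν := by
  rw [Multiset.map_map, Multiset.map_map]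
  apply Multiset.map_congr rfl
  intro x hx
  exact hl x (h.2.1 x hx).1 (h.2.1 x hx).2

theorem exists_unit_mem [FiniteDimensional ℝ E] (W : Submodule ℝ E) (h : 1 ≤ finrank ℝ W) :
    ∃ e ∈ W, ‖e‖ = 1 := by
  have hW : W ≠ ⊥ := by
    rintro rfl
    simp at h
  obtain ⟨v, hv, hv0⟩ := Submodule.exists_mem_ne_zero_of_ne_bot hW
  refine ⟨‖v‖⁻¹ • v, W.smul_mem _ hv, ?_⟩
  rw [norm_smul, norm_inv, norm_norm, inv_mul_cancel₀ (norm_ne_zero_iff.mpr hv0)]

theorem finrank_inf_orth [FiniteDimensional ℝ E] (W : Submodule ℝ E) (e : E) :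
    finrank ℝ W ≤ finrank ℝ (W ⊓ (ℝ ∙ e)ᗮ : Submodule ℝ E) + 1 := by
  have h1 := Submodule.finrank_sup_add_finrank_inf_eq W (ℝ ∙ e)ᗮ
  have h2 : finrank ℝ (W ⊔ (ℝ ∙ e)ᗮ : Submodule ℝ E) ≤ finrank ℝ E := Submodule.finrank_le _
  have h3 := Submodule.finrank_add_finrank_orthogonal (ℝ ∙ e)
  have h4 : finrank ℝ (ℝ ∙ e) ≤ 1 := by
    simpa using finrank_span_le_card (R := ℝ) ({e} : Set E)
  omega

/-- Rotation of `x` towards `e`. -/
noncomputable def rot (e : E) (θ : ℝ) (x : E) : E := Real.cos θ • x + Real.sin θ • e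

theorem norm_rot {e x : E} (he : ‖e‖ = 1) (hx : ‖x‖ = 1) (h : ⟪e, x⟫ = 0) (θ : ℝ) :
    ‖rot e θ x‖ = 1 := by
  have h2 : ‖rot e θ x‖ ^ 2 = 1 := by
    unfold rot
    rw [norm_add_sq_real, inner_smul_left, inner_smul_right, real_inner_comm, h, norm_smul,
      norm_smul, he, hx]
    simp
  exact (pow_eq_one_iff_of_nonneg (norm_nonneg _) two_ne_zero).mp h2

theorem dist_rot {e x y : E} (he : ‖e‖ = 1) (hy : ‖y‖ = 1) (a b : ℝ) :
    dist (rot e a x) (rot e b y) ≤ dist x y + 2 * |a - b| := by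
  rw [dist_eq_norm, dist_eq_norm]
  have : rot e a x - rot e b y = Real.cos a • (x - y) + (Real.cos a - Real.cos b) • y +
      (Real.sin a - Real.sin b) • e := by
    unfold rot
    module
  rw [this]
  have h1 : ‖Real.cos a • (x - y)‖ ≤ ‖x - y‖ := by
    rw [norm_smul]
    exact mul_le_of_le_one_left (norm_nonneg _) (Real.abs_cos_le_one a)
  have h2 : ‖(Real.cos a - Real.cos b) • y‖ ≤ |a - b| := by
    rw [norm_smul, hy, mul_one]
    exact Real.abs_cos_sub_cos_le a b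
  have h3 : ‖(Real.sin a - Real.sin b) • e‖ ≤ |a - b| := by
    rw [norm_smul, he, mul_one]
    exact Real.abs_sin_sub_sin_le a b
  have h4 := norm_add₃_le (a := Real.cos a • (x - y)) (b := (Real.cos a - Real.cos b) • y)
    (c := (Real.sin a - Real.sin b) • e)
  linarith

/-- Filling a fine cycle of the equator by a fine chain of the hemisphere. -/
theorem exists_filling (W : Submodule ℝ E) (e : E) (heW : e ∈ W) (he : ‖e‖ = 1) (n : ℕ) {δ : ℝ}
    (hδ : 0 < δ) (Z : (Multiset E → ZMod 2) →ₗ[ZMod 2] ZMod 2)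
    (hZ : ∀ φ, (∀ m, Small (W ⊓ (ℝ ∙ e)ᗮ) (δ / 2) (n + 1) m → φ m = 0) → Z φ = 0)
    (hZc : ∀ φ, Z (cob φ) = 0) (hZ1 : Z (fun _ => 1) = 0) :
    ∃ L : (Multiset E → ZMod 2) →ₗ[ZMod 2] ZMod 2,
      (∀ φ, (∀ m, Small W δ (n + 2) m → φ m = 0) → L φ = 0) ∧ ∀ φ, L (cob φ) = Z φ := by
  obtain ⟨N, hN⟩ := exists_nat_gt (2 * Real.pi / δ)
  have hN0 : (0 : ℝ) < N := lt_trans (by positivity) hN
  let g : ℕ → E → E := fun j => rot e (j * (Real.pi / (2 * N)))
  have hcongr : ∀ φ ψ : Multiset E → ZMod 2,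
      (∀ m, Small (W ⊓ (ℝ ∙ e)ᗮ) (δ / 2) (n + 1) m → φ m = ψ m) → Z φ = Z ψ := by
    intro φ ψ h
    have := hZ (φ - ψ) (fun m hm => by simp [h m hm])
    rwa [map_sub, sub_eq_zero] at this
  refine ⟨∑ j ∈ Finset.range N, Z ∘ₗ prism (g j) (g (j + 1)) (n + 1), ?_, ?_⟩
  · intro φ hφ
    rw [LinearMap.sum_apply]
    apply Finset.sum_eq_zero
    intro j _
    apply hZ
    intro m hm
    apply prism_eq_zero _ _ _ _ _ hm.1
    intro M hM hM'
    apply hφ
    have key : ∀ y ∈ M, ∃ x ∈ m, ∃ i : ℕ, (i = j ∨ i = j + 1) ∧ y = g i x := by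
      intro y hy
      obtain ⟨x, hx, h | h⟩ := hM' y hy
      · exact ⟨x, hx, j, Or.inl rfl, h⟩
      · exact ⟨x, hx, j + 1, Or.inr rfl, h⟩
    refine ⟨hM, ?_, ?_⟩
    · intro y hy
      obtain ⟨x, hx, i, -, rfl⟩ := key y hy
      obtain ⟨⟨hxW, hxe⟩, hx1⟩ := hm.2.1 x hx
      exact ⟨W.add_mem (W.smul_mem _ hxW) (W.smul_mem _ heW),
        norm_rot he hx1 (Submodule.mem_orthogonal_singleton_iff_inner_right.mp hxe) _⟩
    · intro y hy y' hy'
      obtain ⟨x, hx, i, hi, rfl⟩ := key y hy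
      obtain ⟨x', hx', i', hi', rfl⟩ := key y' hy'
      refine (dist_rot he (hm.2.1 x' hx').2 _ _).trans ?_
      have h1 := hm.2.2 x hx x' hx'
      have h2 : |(i : ℝ) * (Real.pi / (2 * N)) - i' * (Real.pi / (2 * N))| ≤
          Real.pi / (2 * N) := by
        have hp : 0 < Real.pi / (2 * N) := by positivity
        rw [← sub_mul, abs_mul, abs_of_pos hp]
        apply mul_le_of_le_one_left hp.le
        rcases hi with rfl | rfl <;> rcases hi' with rfl | rfl <;> simp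
      have h3 : Real.pi / (2 * N) ≤ δ / 4 := by
        rw [div_lt_iff₀ hδ] at hN
        rw [div_le_div_iff₀ (by positivity) (by positivity)]
        nlinarith
      linarith
  · intro φ
    rw [LinearMap.sum_apply]
    have h1 : ∀ j, (Z ∘ₗ prism (g j) (g (j + 1)) (n + 1)) (cob φ) =
        Z (fun m => φ (m.map (g (j + 1)))) - Z (fun m => φ (m.map (g j))) := by
      intro j
      rw [LinearMap.comp_apply, hcongr _ ((fun m => φ (m.map (g j))) +
        (fun m => φ (m.map (g (j + 1)))) + cob (prism (g j) (g (j + 1)) n φ))]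
      · rw [map_add, map_add, hZc]
        have := z2_add_self (Z fun m => φ (m.map (g j)))
        linear_combination this
      · intro m hm
        rw [prism_cob _ _ _ _ _ hm.1]
        rfl
    simp only [h1]
    rw [Finset.sum_range_sub (fun j => Z (fun m => φ (m.map (g j))))]
    have h2 : g 0 = id := by
      funext x
      simp [g, rot]
    have h3 : g N = fun _ => e := by
      funext x
      have : (N : ℝ) * (Real.pi / (2 * N)) = Real.pi / 2 := by field_simp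
      simp [g, rot, this]
    rw [h2, h3, hcongr (fun m => φ (m.map fun _ => e))
      (φ (Multiset.replicate (n + 1) e) • fun _ => 1), map_smul, hZ1]
    · simp only [Multiset.map_id, smul_zero, zero_sub]
      exact ZMod.neg_eq_self_mod_two _
    · intro m hm
      simp [Multiset.map_const', hm.1]

theorem exists_hemisphere_aux [FiniteDimensional ℝ E] (n : ℕ) (W : Submodule ℝ E)
    (hn : n + 1 ≤ finrank ℝ W) {δ : ℝ} (hδ : 0 < δ) :
    ∃ L : (Multiset E → ZMod 2) →ₗ[ZMod 2] ZMod 2,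
      (∀ φ, (∀ m, Small W δ (n + 1) m → φ m = 0) → L φ = 0) ∧
      (0 < n → ∀ φ, (∀ m, φ (m.map Neg.neg) = φ m) → L (cob φ) = 0) ∧
      (∀ φ : Multiset E → ZMod 2, L (cob fun m => φ m + φ (m.map Neg.neg)) = 0) ∧
      ∀ (Y : Type) (ν : Y → Y) (lab : E → Y), Function.Involutive ν →
        (∀ x ∈ W, ‖x‖ = 1 → lab (-x) = ν (lab x)) →
        (∀ x ∈ W, ∀ y ∈ W, ‖x‖ = 1 → ‖y‖ = 1 → dist x y ≤ δ → lab y ≠ ν (lab x)) →
        L (fun m => kf ν n (m.map lab)) = 1 := by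
  induction n generalizing W δ with
  | zero =>
    obtain ⟨e, heW, he⟩ := exists_unit_mem W hn
    refine ⟨evalL {e}, ?_, fun h => absurd h (lt_irrefl 0), ?_, ?_⟩
    · intro φ hφ
      apply hφ
      refine ⟨by simp, by simp [heW, he], by simp [hδ.le]⟩
    · intro φ
      change cob (fun m => φ m + φ (Multiset.map Neg.neg m)) (e ::ₘ 0) = 0
      rw [cob_cons]
      simp [z2_add_self]
    · intro Y ν lab _ _ _
      change kf ν 0 (Multiset.map lab {e}) = 1
      simp [kf]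
  | succ n ih =>
    obtain ⟨e, heW, he⟩ := exists_unit_mem W (by omega)
    have hfin := finrank_inf_orth W e
    obtain ⟨L', hL1, -, hL3, hL4⟩ := ih (W ⊓ (ℝ ∙ e)ᗮ) (by omega) (half_pos hδ)
    let Z : (Multiset E → ZMod 2) →ₗ[ZMod 2] ZMod 2 :=
      L' ∘ₗ (LinearMap.id + pullL (Multiset.map Neg.neg))
    have hZ : ∀ φ, Z φ = L' fun m => φ m + φ (m.map Neg.neg) := fun φ => rfl
    have hZeven : ∀ φ : Multiset E → ZMod 2, (∀ m, φ (m.map Neg.neg) = φ m) → Z φ = 0 := by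
      intro φ hφ
      rw [hZ]
      apply hL1
      intro m _
      rw [hφ, z2_add_self]
    obtain ⟨L, hLa, hLb⟩ := exists_filling W e heW he n hδ Z
      (fun φ hφ => by
        rw [hZ]
        apply hL1
        intro m hm
        rw [hφ m hm, hφ _ hm.neg, add_zero])
      (fun φ => by
        rw [hZ, ← hL3 φ]
        congr 1
        funext m
        rw [cob_add, cob_map])
      (hZeven _ fun _ => rfl)
    refine ⟨L, hLa, fun _ φ hφ => by rw [hLb, hZeven φ hφ], fun φ => ?_, ?_⟩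
    · rw [hLb]
      apply hZeven
      intro m
      rw [map_map_invol neg_involutive, add_comm]
    · intro Y ν lab hν hodd hgood
      have h1 : (fun m : Multiset E => kf ν (n + 1) (m.map lab)) =
          cob fun m => chi ν (m.map lab) * kf ν n (m.map lab) := by
        funext m
        exact (cob_map lab (fun M => chi ν M * kf ν n M) m).symm
      have hodd' : ∀ x ∈ W ⊓ (ℝ ∙ e)ᗮ, ‖x‖ = 1 → lab (-x) = ν (lab x) :=
        fun x hx => hodd x hx.1
      have hgood' : ∀ x ∈ W ⊓ (ℝ ∙ e)ᗮ, ∀ y ∈ W ⊓ (ℝ ∙ e)ᗮ, ‖x‖ = 1 → ‖y‖ = 1 →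
          dist x y ≤ δ / 2 → lab y ≠ ν (lab x) :=
        fun x hx y hy h1 h2 h3 => hgood x hx.1 y hy.1 h1 h2 (by linarith)
      rw [h1, hLb, hZ, ← hL4 Y ν lab hν hodd' hgood', ← sub_eq_zero, ← map_sub]
      apply hL1
      intro m hm
      have hm0 : m.map lab ≠ 0 := by
        intro h0
        have := congrArg Multiset.card h0
        simp [hm.1] at this
      simp only [Pi.sub_apply]
      rw [hm.map_lab_neg hodd', chi_kf_add hν n _ (hm.good hgood') hm0, sub_self]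

/-- Fine hemisphere chain and the Ky Fan lemma. -/
theorem exists_hemisphere [FiniteDimensional ℝ E] (W : Submodule ℝ E) (n : ℕ)
    (hn : n + 1 ≤ finrank ℝ W) {δ : ℝ} (hδ : 0 < δ) :
    ∃ L : (Multiset E → ZMod 2) →ₗ[ZMod 2] ZMod 2,
      (∀ φ, (∀ m, Small W δ (n + 1) m → φ m = 0) → L φ = 0) ∧
      (0 < n → ∀ φ, (∀ m, φ (m.map Neg.neg) = φ m) → L (cob φ) = 0) ∧
      ∀ (Y : Type) (ν : Y → Y) (lab : E → Y), Function.Involutive ν →
        (∀ x ∈ W, ‖x‖ = 1 → lab (-x) = ν (lab x)) →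
        (∀ x ∈ W, ∀ y ∈ W, ‖x‖ = 1 → ‖y‖ = 1 → dist x y ≤ δ → lab y ≠ ν (lab x)) →
        ∃ t : Multiset Y → ZMod 2, (∀ M, t M ≠ 0 → M.Nodup) ∧ (∀ M, t (M.map ν) = t M) ∧
          L (fun m => t (m.map lab)) = 1 := by
  classical
  obtain ⟨L, h1, h2, -, h4⟩ := exists_hemisphere_aux n W hn hδ
  refine ⟨L, h1, h2, fun Y ν lab hν hodd hgood => ⟨fun M => if Good ν M then kf ν n M else 0,
    ?_, ?_, ?_⟩⟩
  · intro M hM
    apply kf_nodup (ν := ν) n
    intro h
    simp [h] at hM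
  · intro M
    by_cases hM : Good ν M
    · simp only [if_pos hM, if_pos (good_map hν hM), kf_map hν n M hM]
    · have : ¬ Good ν (M.map ν) := fun h => hM (by simpa [map_map_invol hν] using good_map hν h)
      simp only [if_neg hM, if_neg this]
  · rw [← h4 Y ν lab hν hodd hgood, ← sub_eq_zero, ← map_sub]
    apply h1
    intro m hm
    simp [hm.good hgood]

end Crest.Agent.R50
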