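import Crest.Agent.R50.Nerve

/-! Local structure of the admissible data at a form, and the finite cochains on pairs. -/

set_option autoImplicit false

open scoped RealInnerProductSpace
open Module

namespace Crest.Agent.R50

section loc
variable {P : Type} [NormedAddCommGroup P] {C : Cover E4 (Fin 10)} {S : SymFam P E4} {z : P}

theorem loc_reg1 (hb : S.Bal z) {dr : Datum (Fin 10)} (hr : Adm C S z dr) (hr' : dr.2.1 = true)
    {d d' : Datum (Fin 10)} (hd : Adm C S z d) (hd' : Adm C S z d') :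
    d.2.2.1 ≠ d'.2.2.2.2 ∧ d.2.2.2.1 ≠ d'.2.2.2.2 := by
  obtain ⟨u₁, u₂, u₄, c1, c2, -, -, -, -, -, -, c9, -⟩ := hr
  obtain ⟨x₁, x₂, x₄, a1, a2, -, a4, a5, -⟩ := hd
  obtain ⟨y₁, y₂, y₄, -, -, b3, -, -, b6, -⟩ := hd'
  exact ⟨fun h => C.orth _ _ a4 _ (h ▸ b6) (hb.top_orth a1 b3),
    fun h => C.orth _ _ a5 _ (h ▸ b6)
      (hb.sec_orth a1 a2 (SymFam.sec_nonneg c1 c2 (c9 hr') a2) b3)⟩

theorem loc_reg2 (hb : S.Bal z) {dr : Datum (Fin 10)} (hr : Adm C S z dr) (hr' : dr.2.1 = true)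
    (σ : Finset (Fin 10)) (hσ : ∀ i ∉ σ, ∃ d, Adm C S z d ∧ d.2.2.2.2 = i) : ¬ C.K σ := by
  obtain ⟨u₁, u₂, u₄, c1, c2, -, -, -, -, -, -, c9, -⟩ := hr
  rintro ⟨y, hy⟩
  obtain ⟨a, b, hab, h⟩ := exists_comb u₁ u₂ y
  obtain ⟨i, hi⟩ := C.cover _ (norm_comb c1.1 c2.1 c2.2.1 hab)
  by_cases hiσ : i ∈ σ
  · exact C.orth i y (hy i hiσ) _ hi h
  · obtain ⟨d, ⟨y₁, y₂, y₄, -, -, b3, -, -, b6, -⟩, rfl⟩ := hσ i hiσ
    apply C.orth _ _ hi _ b6
    rw [inner_add_left, inner_smul_left, inner_smul_left, hb.top_orth c1 b3,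
      hb.sec_orth c1 c2 (c9 hr') b3]
    simp

theorem loc_non (hb : S.Bal z) {dn : Datum (Fin 10)} (hn : Adm C S z dn) (hn' : dn.2.1 = false) :
    ∃ u, S.IsTop z u ∧ ∀ x, S.IsTop z x → x = u ∨ x = -u := by
  obtain ⟨u₁, u₂, u₄, c1, c2, c3, -, -, -, -, -, -, c10⟩ := hn
  exact ⟨u₁, c1, fun x hx => SymFam.top_unique c1 c2 (c10 hn') (hb u₁ u₄ c1 c3).2 hx⟩

theorem loc_non1 (hb : S.Bal z) {dn : Datum (Fin 10)} (hn : Adm C S z dn) (hn' : dn.2.1 = false)
    (τ : Finset (Fin 10)) (hτ : ∀ i ∈ τ, ∃ d, Adm C S z d ∧ d.2.2.1 = i) : C.K τ := by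
  obtain ⟨u, -, hu⟩ := loc_non hb hn hn'
  refine ⟨u, fun i hi => ?_⟩
  obtain ⟨d, ⟨x₁, x₂, x₄, a1, -, -, a4, -⟩, rfl⟩ := hτ i hi
  rcases hu x₁ a1 with rfl | rfl
  · exact a4
  · simpa using C.neg _ _ a4

theorem loc_non2 (hb : S.Bal z) {dn : Datum (Fin 10)} (hn : Adm C S z dn) (hn' : dn.2.1 = false)
    {d d' : Datum (Fin 10)} (hd : Adm C S z d) (hd' : Adm C S z d') : d.2.2.1 ≠ d'.2.2.2.1 := by
  obtain ⟨u, -, hu⟩ := loc_non hb hn hn'
  obtain ⟨x₁, x₂, x₄, a1, -, -, a4, -⟩ := hd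
  obtain ⟨y₁, y₂, y₄, b1, b2, -, -, b5, -⟩ := hd'
  intro h
  apply C.orth _ _ a4 _ (h ▸ b5)
  have h1 := b2.2.1
  rcases hu x₁ a1 with rfl | rfl <;> rcases hu y₁ b1 with rfl | rfl <;> simpa using h1

theorem loc_both (hb : S.Bal z) {dn : Datum (Fin 10)} (hn : Adm C S z dn) (hn' : dn.2.1 = false)
    {dr : Datum (Fin 10)} (hr : Adm C S z dr) (hr' : dr.2.1 = true)
    (σ : Finset (Fin 10)) (hσ : ∀ i ∈ σ, ∃ d, Adm C S z d ∧ d.2.2.2.2 = i) (hK : ¬ C.K σ)
    (τ : Finset (Fin 10)) (hτ : ∀ i ∈ τ, ∃ d, Adm C S z d ∧ d.2.2.2.1 = i) : C.K τ := by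
  obtain ⟨u, hu1, hu⟩ := loc_non hb hn hn'
  obtain ⟨u₁, u₂, u₄, c1, c2, -, -, -, -, -, -, c9, -⟩ := hr
  set W := Submodule.span ℝ {y | S.IsTop (-z) y} with hW
  have hWorth : ∀ x, (∀ y, S.IsTop (-z) y → ⟪x, y⟫ = 0) → x ∈ Wᗮ := by
    intro x hx
    rw [Submodule.mem_orthogonal']
    intro v hv
    induction hv using Submodule.span_induction with
    | mem y hy => exact hx y hy
    | zero => simp
    | add x y _ _ hx hy => rw [inner_add_right, hx, hy, add_zero]
    | smul a x _ hx => rw [inner_smul_right, hx, mul_zero]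
  have h2 : 2 ≤ finrank ℝ W := by
    by_contra hlt
    apply hK
    apply K_of_finrank_le_one C W (by omega)
    intro i hi
    obtain ⟨d, ⟨y₁, y₂, y₄, -, -, b3, -, -, b6, -⟩, rfl⟩ := hσ i hi
    exact ⟨y₄, Submodule.subset_span b3, b6⟩
  have h3 : finrank ℝ W < finrank ℝ (W ⊔ (ℝ ∙ u) : Submodule ℝ E4) := by
    apply Submodule.finrank_lt_finrank_of_lt
    refine lt_of_le_of_ne le_sup_left fun h => ?_
    have h4 : u ∈ W := by
      rw [h]
      exact Submodule.mem_sup_right (Submodule.mem_span_singleton_self u)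
    have h5 := Submodule.inner_right_of_mem_orthogonal h4
      (hWorth u fun y hy => hb.top_orth hu1 hy)
    rw [real_inner_self_eq_norm_sq, hu1.1] at h5
    norm_num at h5
  have h4 := Submodule.finrank_add_finrank_orthogonal (W ⊔ (ℝ ∙ u))
  have h5 : finrank ℝ E4 = 4 := by simp
  apply K_of_finrank_le_one C (W ⊔ (ℝ ∙ u))ᗮ (by omega)
  intro i hi
  obtain ⟨d, ⟨x₁, x₂, x₄, a1, a2, -, -, a5, -⟩, rfl⟩ := hτ i hi
  refine ⟨x₂, ?_, a5⟩
  rw [← Submodule.inf_orthogonal]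
  refine ⟨hWorth _ fun y hy => hb.sec_orth a1 a2 (SymFam.sec_nonneg c1 c2 (c9 hr') a2) hy, ?_⟩
  apply Submodule.mem_orthogonal_singleton_iff_inner_right.mpr
  have h1 := a2.2.1
  rcases hu x₁ a1 with rfl | rfl <;> simpa using h1

end loc

section parts
variable {ι : Type}

/-- The colour pairs of the positive vertices. -/
def posD (D : Multiset (Datum ι)) : Multiset (ι × ι) :=
  (D.filter fun d => d.1 = true).map fun d => (d.2.2.1, d.2.2.2.1)

/-- The colours of the negative vertices. -/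
def negD (D : Multiset (Datum ι)) : Multiset ι :=
  (D.filter fun d => d.1 = false).map fun d => d.2.2.2.2

theorem mem_posD {D : Multiset (Datum ι)} {p : ι × ι} (h : p ∈ posD D) :
    ∃ d ∈ D, d.1 = true ∧ d.2.2.1 = p.1 ∧ d.2.2.2.1 = p.2 := by
  obtain ⟨d, hd, rfl⟩ := Multiset.mem_map.mp h
  rw [Multiset.mem_filter] at hd
  exact ⟨d, hd.1, hd.2, rfl, rfl⟩

theorem mem_negD {D : Multiset (Datum ι)} {i : ι} (h : i ∈ negD D) :
    ∃ d ∈ D, d.1 = false ∧ d.2.2.2.2 = i := by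
  obtain ⟨d, hd, rfl⟩ := Multiset.mem_map.mp h
  rw [Multiset.mem_filter] at hd
  exact ⟨d, hd.1, hd.2, rfl⟩

theorem map_lab (D : Multiset (Datum ι)) :
    D.map Datum.lab = signed ((posD D).map Prod.fst) (negD D) := by
  induction D using Multiset.induction_on with
  | empty => simp [signed, posD, negD]
  | cons d D ih =>
    rw [Multiset.map_cons, ih]
    cases h : d.1 <;> simp [signed, posD, negD, Datum.lab, h]

theorem card_parts (D : Multiset (Datum ι)) : (posD D).card + (negD D).card = D.card := by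
  have := congrArg Multiset.card (map_lab D)
  simpa [signed] using this.symm

theorem cob_mul (f : Multiset (ι × ι) → ZMod 2) (g : Multiset ι → ZMod 2)
    (D : Multiset (Datum ι)) :
    cob (fun s => f (posD s) * g (negD s)) D =
      cob f (posD D) * g (negD D) + f (posD D) * cob g (negD D) := by
  induction D using Multiset.induction_on generalizing f g with
  | empty => simp [posD, negD]
  | cons d D ih =>
    rw [cob_cons]
    cases h : d.1
    · have h1 : ∀ s, posD (d ::ₘ s) = posD s := fun s => by simp [posD, h]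
      have h2 : ∀ s, negD (d ::ₘ s) = d.2.2.2.2 ::ₘ negD s := fun s => by simp [negD, h]
      simp only [h1, h2]
      rw [ih f (fun s => g (d.2.2.2.2 ::ₘ s)), cob_cons]
      ring
    · have h1 : ∀ s, posD (d ::ₘ s) = (d.2.2.1, d.2.2.2.1) ::ₘ posD s :=
        fun s => by simp [posD, h]
      have h2 : ∀ s, negD (d ::ₘ s) = negD s := fun s => by simp [negD, h]
      simp only [h1, h2]
      rw [ih (fun s => f ((d.2.2.1, d.2.2.2.1) ::ₘ s)) g, cob_cons]
      ring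

open Classical in
/-- Indicator of the simplices inside the region. -/
noncomputable def reg (D : Multiset (Datum ι)) : ZMod 2 := if ∀ d ∈ D, d.2.1 = true then 1 else 0

theorem cob_reg_mul (Φ : Multiset (Datum ι) → ZMod 2) (D : Multiset (Datum ι))
    (h : ∀ d s, D = d ::ₘ s → d.2.1 = false → (∀ d' ∈ s, d'.2.1 = true) → Φ s = 0) :
    cob (fun s => reg s * Φ s) D = reg D * cob Φ D := by
  by_cases hD : ∀ d ∈ D, d.2.1 = true
  · rw [reg, if_pos hD, one_mul]
    apply cob_congr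
    intro x s hs
    rw [reg, if_pos fun d hd => hD d (by rw [hs]; exact Multiset.mem_cons_of_mem hd), one_mul]
  · rw [reg, if_neg hD, zero_mul]
    apply cob_eq_zero
    intro x s hs
    by_cases hs' : ∀ d ∈ s, d.2.1 = true
    · rw [h x s hs _ hs', mul_zero]
      by_contra hx
      apply hD
      intro d hd
      rw [hs, Multiset.mem_cons] at hd
      rcases hd with rfl | hd
      · simpa using hx
      · exact hs' d hd
    · rw [reg, if_neg hs', zero_mul]

end parts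

section four

/-- A retraction of the cuboctahedron minus two opposite triangles onto a triangle boundary. -/
def mu (p : Fin 4 × Fin 4) : Fin 4 :=
  if p.1 = 3 then (if p.2 = 0 then 1 else if p.2 = 1 then 2 else 0) else p.1

/-- First end of the chosen edge of the triangle opposite to `v`. -/
def ea (v : Fin 4) : Fin 4 := if v = 0 then 1 else 0

/-- Second end of the chosen edge of the triangle opposite to `v`. -/
def eb (v : Fin 4) : Fin 4 := if v = 0 ∨ v = 1 then 2 else 1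

/-- Third vertex of the triangle opposite to `v`. -/
def ec (v : Fin 4) : Fin 4 := if v = 3 then 2 else 3

/-- The potentials on the four hexagons. -/
def pot (v : Fin 4) (p : Fin 4 × Fin 4) : ZMod 2 :=
  if (v = 0 ∧ p.1 = 1) ∨ (v = 1 ∧ (p = (0, 2) ∨ p = (0, 3) ∨ p = (3, 2))) then 1 else 0

/-- Indicator of an edge. -/
def om (a b x y : Fin 4) : ZMod 2 := if (x = a ∧ y = b) ∨ (x = b ∧ y = a) then 1 else 0

theorem ind_pair (a b x y : Fin 4) : ind (a ::ₘ b ::ₘ 0) (x ::ₘ y ::ₘ 0) = om a b x y := by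
  have : (x ::ₘ y ::ₘ (0 : Multiset (Fin 4))) = a ::ₘ b ::ₘ 0 ↔
      (x = a ∧ y = b) ∨ (x = b ∧ y = a) := by
    revert a b x y
    decide
  unfold ind om
  by_cases h : (x = a ∧ y = b) ∨ (x = b ∧ y = a)
  · rw [if_pos h, if_pos (this.mpr h)]
  · rw [if_neg h, if_neg (this.not.mpr h)]

/-- The generator of the cohomology of the annulus. -/
noncomputable def omega (Q : Multiset (Fin 4 × Fin 4)) : ZMod 2 := ind (0 ::ₘ 1 ::ₘ 0) (Q.map mu)

/-- The standard generator on the hexagon opposite to `v`. -/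
noncomputable def omegaV (v : Fin 4) (Q : Multiset (Fin 4 × Fin 4)) : ZMod 2 :=
  ind (ea v ::ₘ eb v ::ₘ 0) (Q.map Prod.fst)

/-- The potential as a cochain. -/
def potC (v : Fin 4) (Q : Multiset (Fin 4 × Fin 4)) : ZMod 2 :=
  if Q.card = 1 then (Q.map (pot v)).sum else 0

/-- The difference cochain, vanishing on the cells of the hexagon. -/
noncomputable def xi (v : Fin 4) (Q : Multiset (Fin 4 × Fin 4)) : ZMod 2 :=
  omega Q + omegaV v Q + cob (potC v) Q

theorem card_of_omega {Q : Multiset (Fin 4 × Fin 4)} (h : omega Q ≠ 0) : Q.card = 2 := by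
  simpa using congrArg Multiset.card (eq_of_ind_ne_zero h)

theorem card_of_cob_omega {Q : Multiset (Fin 4 × Fin 4)} (h : cob omega Q ≠ 0) : Q.card = 3 := by
  by_contra hc
  apply h
  apply cob_eq_zero
  intro x s hs
  by_contra hne
  rw [hs, Multiset.card_cons, card_of_omega hne] at hc
  exact hc rfl

theorem card_of_xi {v : Fin 4} {Q : Multiset (Fin 4 × Fin 4)} (h : xi v Q ≠ 0) : Q.card = 2 := by
  by_contra hc
  apply h
  have h1 : omega Q = 0 := by
    by_contra hne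
    exact hc (card_of_omega hne)
  have h2 : omegaV v Q = 0 := by
    by_contra hne
    exact hc (by simpa using congrArg Multiset.card (eq_of_ind_ne_zero hne))
  have h3 : cob (potC v) Q = 0 := by
    apply cob_eq_zero
    intro x s hs
    rw [potC, if_neg]
    intro h1
    rw [hs, Multiset.card_cons, h1] at hc
    exact hc rfl
  rw [xi, h1, h2, h3]
  simp

set_option synthInstance.maxSize 2000 in
theorem four_aux1 : ∀ p q r : Fin 4 × Fin 4,
    (∀ a ∈ [p, q, r], ∀ b ∈ [p, q, r], a.1 ≠ b.2) →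
    ¬ (∀ i ∈ [0, 1, 2], i ∈ [p.1, q.1, r.1]) → ¬ (∀ i ∈ [0, 1, 2], i ∈ [p.2, q.2, r.2]) →
    om 0 1 (mu q) (mu r) + (om 0 1 (mu p) (mu r) + om 0 1 (mu p) (mu q)) = 0 := by
  decide +kernel

set_option synthInstance.maxSize 2000 in
theorem four_aux2 : ∀ (v : Fin 4) (p q : Fin 4 × Fin 4),
    (∀ a ∈ [p, q], ∀ b ∈ [p, q], a.1 ≠ b.2) → (∀ a ∈ [p, q], a.1 ≠ v ∧ a.2 ≠ v) →
    om 0 1 (mu p) (mu q) + om (ea v) (eb v) p.1 q.1 + (pot v q + pot v p) = 0 := by
  decide +kernel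

set_option synthInstance.maxSize 2000 in
theorem four_aux3 : ∀ v : Fin 4, (ea v ::ₘ eb v ::ₘ (0 : Multiset (Fin 4))).Nodup ∧
    Finset.univ.filter (fun u => u ∉ (ea v ::ₘ eb v ::ₘ (0 : Multiset (Fin 4)))) = {v, ec v} ∧
    v ≠ ec v ∧
    ec v ::ₘ ea v ::ₘ eb v ::ₘ (0 : Multiset (Fin 4)) = (Finset.univ.erase v).val := by
  decide

theorem cob_omega_eq_zero {Q : Multiset (Fin 4 × Fin 4)} (h1 : ∀ p ∈ Q, ∀ q ∈ Q, p.1 ≠ q.2)
    (h2 : ¬ ∀ i ∈ [0, 1, 2], ∃ p ∈ Q, p.1 = i) (h3 : ¬ ∀ i ∈ [0, 1, 2], ∃ p ∈ Q, p.2 = i) :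
    cob omega Q = 0 := by
  by_contra hne
  obtain ⟨p, q, r, rfl⟩ := Multiset.card_eq_three.mp (card_of_cob_omega hne)
  apply hne
  have : ({p, q, r} : Multiset (Fin 4 × Fin 4)) = p ::ₘ q ::ₘ r ::ₘ 0 := rfl
  rw [this, cob_cons, cob_cons, cob_cons, cob_zero, add_zero]
  simp only [omega, Multiset.map_cons, Multiset.map_zero, ind_pair]
  apply four_aux1
  · simpa using h1
  · intro h
    apply h2
    intro i hi
    simpa [eq_comm] using h i hi
  · intro h
    apply h3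
    intro i hi
    simpa [eq_comm] using h i hi

theorem xi_eq_zero {v : Fin 4} {Q : Multiset (Fin 4 × Fin 4)} (h1 : ∀ p ∈ Q, ∀ q ∈ Q, p.1 ≠ q.2)
    (h2 : ∀ p ∈ Q, p.1 ≠ v ∧ p.2 ≠ v) : xi v Q = 0 := by
  by_contra hne
  obtain ⟨p, q, rfl⟩ := Multiset.card_eq_two.mp (card_of_xi hne)
  apply hne
  have : ({p, q} : Multiset (Fin 4 × Fin 4)) = p ::ₘ q ::ₘ 0 := rfl
  rw [xi, this, cob_cons, cob_cons, cob_zero, add_zero]
  simp only [omega, omegaV, potC, Multiset.map_cons, Multiset.map_zero, ind_pair,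
    Multiset.card_cons, Multiset.card_zero, zero_add, if_true, Multiset.sum_cons,
    Multiset.sum_zero, add_zero]
  apply four_aux2
  · simpa using h1
  · simpa using h2

theorem cob_omega_add_cob_xi {v : Fin 4} {Q : Multiset (Fin 4 × Fin 4)}
    (h : ∀ p ∈ Q, p.1 ≠ v) :
    cob omega Q + cob (xi v) Q = ind (Finset.univ.erase v).val (Q.map Prod.fst) := by
  have h1 : cob (xi v) Q = cob omega Q + cob (omegaV v) Q + cob (cob (potC v)) Q := by
    rw [← cob_add, ← cob_add]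
    rfl
  have h2 : cob (omegaV v) Q = cob (ind (ea v ::ₘ eb v ::ₘ 0)) (Q.map Prod.fst) :=
    cob_map Prod.fst _ Q
  obtain ⟨h3, h4, h5, h6⟩ := four_aux3 v
  rw [h1, cob_cob, add_zero, ← add_assoc, z2_add_self, zero_add, h2, cob_ind h3, h4,
    Finset.sum_pair h5, h6, ind_of_ne, zero_add]
  intro heq
  have : v ∈ Q.map Prod.fst := by
    rw [heq]
    exact Multiset.mem_cons_self _ _
  obtain ⟨p, hp, hpv⟩ := Multiset.mem_map.mp this
  exact h p hp hpv

end four

end Crest.Agent.R50
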