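import Crest.Agent.R50.Defs

/-! The Veronese embedding of real projective three-space in nine-dimensional space. -/

set_option autoImplicit false

open scoped RealInnerProductSpace

namespace Crest.Agent.R50

/-- The Veronese map, in isometric coordinates on the trace-one symmetric matrices. -/
noncomputable def ver (x : E4) : EuclideanSpace ℝ (Fin 9) :=
  !₂[√2 * x 0 * x 1, √2 * x 0 * x 2, √2 * x 0 * x 3, √2 * x 1 * x 2, √2 * x 1 * x 3,
    √2 * x 2 * x 3, (x 0 ^ 2 + x 1 ^ 2 - x 2 ^ 2 - x 3 ^ 2) / 2,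
    (x 0 ^ 2 - x 1 ^ 2 + x 2 ^ 2 - x 3 ^ 2) / 2, (x 0 ^ 2 - x 1 ^ 2 - x 2 ^ 2 + x 3 ^ 2) / 2]

theorem ver_neg (x : E4) : ver (-x) = ver x := by
  simp [ver]

theorem dist_ver_sq {x y : E4} (hx : ‖x‖ = 1) (hy : ‖y‖ = 1) :
    dist (ver x) (ver y) ^ 2 = 2 - 2 * ⟪x, y⟫ ^ 2 := by
  have h1 : x 0 ^ 2 + x 1 ^ 2 + x 2 ^ 2 + x 3 ^ 2 = 1 := by
    have := EuclideanSpace.real_norm_sq_eq x
    rw [hx, Fin.sum_univ_four] at this
    linarith
  have h2 : y 0 ^ 2 + y 1 ^ 2 + y 2 ^ 2 + y 3 ^ 2 = 1 := by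
    have := EuclideanSpace.real_norm_sq_eq y
    rw [hy, Fin.sum_univ_four] at this
    linarith
  have h3 : ⟪x, y⟫ = x 0 * y 0 + x 1 * y 1 + x 2 * y 2 + x 3 * y 3 := by
    simp [PiLp.inner_apply, Fin.sum_univ_four, mul_comm]
  have hs : √2 ^ 2 = 2 := Real.sq_sqrt (by norm_num)
  rw [EuclideanSpace.dist_sq_eq, h3]
  simp only [Fin.sum_univ_succ, Fin.sum_univ_zero, ver, Real.dist_eq, sq_abs]
  simp
  linear_combination
    ((x 0 * x 1 - y 0 * y 1) ^ 2 + (x 0 * x 2 - y 0 * y 2) ^ 2 + (x 0 * x 3 - y 0 * y 3) ^ 2 +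
      (x 1 * x 2 - y 1 * y 2) ^ 2 + (x 1 * x 3 - y 1 * y 3) ^ 2 + (x 2 * x 3 - y 2 * y 3) ^ 2) * hs +
    (3 / 4 * (x 0 ^ 2 + x 1 ^ 2 + x 2 ^ 2 + x 3 ^ 2) + 3 / 4 +
      1 / 2 * (y 0 ^ 2 + y 1 ^ 2 + y 2 ^ 2 + y 3 ^ 2)) * h1 +
    (3 / 4 * (y 0 ^ 2 + y 1 ^ 2 + y 2 ^ 2 + y 3 ^ 2) + 5 / 4) * h2

theorem dist_ver_le {x y : E4} (hx : ‖x‖ = 1) (hy : ‖y‖ = 1) : dist (ver x) (ver y) ≤ √2 := by
  apply Real.le_sqrt_of_sq_le
  rw [dist_ver_sq hx hy]
  nlinarith [sq_nonneg ⟪x, y⟫]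

/-- The statement follows from the non-existence of a ten-class cover. -/
theorem reduce (h : Cover E4 (Fin 10) → False) :
    ∃ S : Set (EuclideanSpace ℝ (Fin 9)), Bornology.IsBounded S ∧ S.Nontrivial ∧
      ∀ c : EuclideanSpace ℝ (Fin 9) → Fin 10, ∃ i : Fin 10,
        Metric.diam S ≤ Metric.diam (S ∩ c ⁻¹' {i}) := by
  set S : Set (EuclideanSpace ℝ (Fin 9)) := ver '' {x | ‖x‖ = 1} with hS
  have hle : ∀ p ∈ S, ∀ q ∈ S, dist p q ≤ √2 := by
    rintro _ ⟨x, hx, rfl⟩ _ ⟨y, hy, rfl⟩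
    exact dist_ver_le hx hy
  have hb : Bornology.IsBounded S := Metric.isBounded_iff.mpr ⟨√2, fun p hp q hq => hle p hp q hq⟩
  have hdiam : Metric.diam S ≤ √2 := Metric.diam_le_of_forall_dist_le (by positivity) hle
  refine ⟨S, hb, ?_, fun c => ?_⟩
  · have h0 : ‖(EuclideanSpace.single 0 1 : E4)‖ = 1 := by simp
    have h1 : ‖(EuclideanSpace.single 1 1 : E4)‖ = 1 := by simp
    refine ⟨_, ⟨_, h0, rfl⟩, _, ⟨_, h1, rfl⟩, fun heq => ?_⟩
    have := dist_ver_sq h0 h1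
    rw [heq] at this
    simp [EuclideanSpace.inner_single_left] at this
  by_contra hno
  push Not at hno
  apply h
  refine
    { F := fun i => closure {x | ‖x‖ = 1 ∧ c (ver x) = i}
      closed := fun i => isClosed_closure
      unit := fun i x hx => ?_
      neg := fun i x hx => ?_
      cover := fun x hx => ⟨c (ver x), subset_closure ⟨hx, rfl⟩⟩
      orth := fun i x hx y hy => ?_ }
  · exact closure_minimal (fun y hy => hy.1) (isClosed_eq continuous_norm continuous_const) hx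
  · exact map_mem_closure continuous_neg hx fun y hy => ⟨by simpa using hy.1, by
      rw [ver_neg]; exact hy.2⟩
  · set D := Metric.diam (S ∩ c ⁻¹' {i})
    have hD0 : 0 ≤ D := Metric.diam_nonneg
    have hD : D ^ 2 < 2 := by
      have h1 : D < √2 := (hno i).trans_le hdiam
      exact (Real.lt_sqrt hD0).mp h1
    have key : 2 - 2 * ⟪x, y⟫ ^ 2 ≤ D ^ 2 := by
      have := map_mem_closure₂ (f := fun x y : E4 => 2 - 2 * ⟪x, y⟫ ^ 2) (u := Set.Iic (D ^ 2))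
        (by fun_prop) hx hy (fun a ha b hb' => by
          rw [Set.mem_Iic, ← dist_ver_sq ha.1 hb'.1]
          exact pow_le_pow_left₀ dist_nonneg (Metric.dist_le_diam_of_mem
            (hb.subset Set.inter_subset_left) ⟨⟨a, ha.1, rfl⟩, ha.2⟩ ⟨⟨b, hb'.1, rfl⟩, hb'.2⟩) 2)
      simpa using this
    intro h0
    rw [h0] at key
    linarith

end Crest.Agent.R50
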