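import Crest.Agent.R50.Nerve

/-! Consequences of an odd lift: balanced sets are faces, and a tetrahedron without free
triangles exists. -/

set_option autoImplicit false

open scoped RealInnerProductSpace
open Module

namespace Crest.Agent.R50

variable (C : Cover E4 (Fin 10))

/-- A balanced set of colours is a face of the nerve. -/
theorem K_of_balanced (w : Fin 10 → Fin 10 → ZMod 2) (η : E4 → ZMod 2) (δ : ℝ) (hδ : 0 < δ)
    (hη1 : ∀ x, ‖x‖ = 1 → η (-x) = η x + 1)
    (hη2 : ∀ x y, ‖x‖ = 1 → ‖y‖ = 1 → dist x y ≤ δ → η x + η y = w (C.c x) (C.c y))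
    (σ : Finset (Fin 10))
    (hσ : ∀ i ∈ σ, ∀ j ∈ σ, ∀ k ∈ σ, w i j + w j k + w i k = 0) : C.K σ := by
  obtain ⟨V, h1, -, h3⟩ := exists_split C σ
  apply K_of_finrank_le_one C V _ σ h1
  by_contra hlt
  obtain ⟨e, heV, he⟩ := exists_unit_mem V (by omega)
  have hp : C.c e ∈ σ := h3 _ ⟨e, heV, C.c_mem he⟩
  obtain ⟨L, hL1, -, hL3⟩ := exists_hemisphere V 1 (by omega) hδ
  have hsame : ∀ x ∈ V, ∀ y ∈ V, ‖x‖ = 1 → ‖y‖ = 1 → dist x y ≤ δ →
      η y + w (C.c e) (C.c y) = η x + w (C.c e) (C.c x) := by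
    intro x hx y hy hx1 hy1 hxy
    have a1 := hη2 x y hx1 hy1 hxy
    have a2 := hσ _ hp _ (h3 _ ⟨x, hx, C.c_mem hx1⟩) _ (h3 _ ⟨y, hy, C.c_mem hy1⟩)
    grind
  obtain ⟨t, ht1, -, ht3⟩ := hL3 (ZMod 2) (fun s => s + 1) (fun x => η x + w (C.c e) (C.c x))
    (fun s => by grind)
    (fun x _ hx => by
      rw [hη1 x hx, C.c_neg]
      ring)
    (fun x hx y hy hx1 hy1 hxy => by
      rw [hsame x hx y hy hx1 hy1 hxy]
      simp)
  rw [hL1] at ht3
  · exact zero_ne_one ht3
  · intro m hm
    by_contra hne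
    have hnd := ht1 _ hne
    obtain ⟨x, y, rfl⟩ := Multiset.card_eq_two.mp hm.1
    have := hsame x (hm.2.1 x (by simp)).1 y (hm.2.1 y (by simp)).1 (hm.2.1 x (by simp)).2
      (hm.2.1 y (by simp)).2 (hm.2.2 x (by simp) y (by simp))
    simp [this] at hnd

/-- A tetrahedron none of whose triangles is free. -/
theorem exists_star (w : Fin 10 → Fin 10 → ZMod 2) (hw0 : ∀ i, w i i = 0)
    (η : E4 → ZMod 2) (δ : ℝ) (hδ : 0 < δ)
    (hη1 : ∀ x, ‖x‖ = 1 → η (-x) = η x + 1)
    (hη2 : ∀ x y, ‖x‖ = 1 → ‖y‖ = 1 → dist x y ≤ δ → η x + η y = w (C.c x) (C.c y)) :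
    ∃ ρ : Finset (Fin 10), ρ.card = 4 ∧ C.K ρ ∧
      ∀ a ∈ ρ, ∃ b ∉ ρ, C.K (insert b (ρ.erase a)) := by
  classical
  obtain ⟨δ', hδ', hleb⟩ := C.exists_lebesgue ⊤
  obtain ⟨L, hL1, hL2, hL3⟩ := exists_hemisphere (⊤ : Submodule ℝ E4) 3 (by simp) (lt_min hδ hδ')
  have hcongr : ∀ φ ψ : Multiset E4 → ZMod 2,
      (∀ m, Small ⊤ (min δ δ') 4 m → φ m = ψ m) → L φ = L ψ := by
    intro φ ψ h
    have := hL1 (φ - ψ) (fun m hm => by simp [h m hm])
    rwa [map_sub, sub_eq_zero] at this
  let lab : E4 → Fin 10 × ZMod 2 := fun x => (C.c x, η x)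
  let ν : Fin 10 × ZMod 2 → Fin 10 × ZMod 2 := fun p => (p.1, p.2 + 1)
  obtain ⟨t, ht1, ht2, ht3⟩ := hL3 _ ν lab
    (fun p => by
      refine Prod.ext rfl ?_
      simp only [ν]
      grind)
    (fun x _ hx => Prod.ext (C.c_neg x) (hη1 x hx))
    (fun x _ y _ hx hy hxy h => by
      have a1 := hη2 x y hx hy (hxy.trans (min_le_left _ _))
      have a2 : C.c y = C.c x := congrArg Prod.fst h
      have a3 : η y = η x + 1 := congrArg Prod.snd h
      rw [a2, hw0, a3] at a1
      grind)
  set N : Finset (Fin 10) → ZMod 2 := fun β => L fun m => ind β.val (m.map C.c) with hN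
  have hNK : ∀ β, N β ≠ 0 → β.card = 4 ∧ C.K β := by
    intro β hβ
    have hex : ∃ m, Small ⊤ (min δ δ') 4 m ∧ m.map C.c = β.val := by
      by_contra hno
      push Not at hno
      exact hβ (hL1 _ fun m hm => ind_of_ne (hno m hm))
    obtain ⟨m, hm, hmβ⟩ := hex
    refine ⟨by rw [← Finset.card_val, ← hmβ, Multiset.card_map, hm.1], ?_⟩
    have hm0 : m ≠ 0 := by
      rintro rfl
      simpa using hm.1
    obtain ⟨x, hx⟩ := Multiset.exists_mem_of_ne_zero hm0
    obtain ⟨z, -, -, hz⟩ := hleb x trivial (hm.2.1 x hx).2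
    refine ⟨z, fun i hi => ?_⟩
    rw [← Finset.mem_val, ← hmβ] at hi
    obtain ⟨y, hy, rfl⟩ := Multiset.mem_map.mp hi
    exact hz y (hm.2.1 y hy).2 ((hm.2.2 x hx y hy).trans (min_le_right _ _))
  have hex : ∃ ρ, N ρ ≠ 0 := by
    by_contra hno
    push Not at hno
    -- the canonical lift of a set of colours
    let lift : Multiset (Fin 10) → Multiset (Fin 10 × ZMod 2) := fun A =>
      A.map fun i => (i, w (pick A) i)
    have hlift : ∀ m, Small ⊤ (min δ δ') 4 m → t (m.map lab) = t (lift (m.map C.c)) := by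
      intro m hm
      have hm0 : m.map C.c ≠ 0 := by
        intro h
        have := congrArg Multiset.card h
        simp [hm.1] at this
      obtain ⟨x, hx, hxp⟩ := Multiset.mem_map.mp (pick_mem hm0)
      have key : ∀ y ∈ m, η y = η x + w (pick (m.map C.c)) (C.c y) := by
        intro y hy
        have := hη2 x y (hm.2.1 x hx).2 (hm.2.1 y hy).2 ((hm.2.2 x hx y hy).trans (min_le_left _ _))
        rw [← hxp]
        grind
      have hcases : ∀ s : ZMod 2, s = 0 ∨ s = 1 := by decide
      rcases hcases (η x) with h | h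
      · congr 1
        simp only [lift, Multiset.map_map]
        apply Multiset.map_congr rfl
        intro y hy
        simp only [lab, key y hy, h, zero_add, Function.comp]
      · rw [← ht2 (lift _)]
        congr 1
        simp only [lift, Multiset.map_map]
        apply Multiset.map_congr rfl
        intro y hy
        simp only [lab, ν, key y hy, h, Function.comp, add_comm]
    rw [hcongr _ (∑ β : Finset (Fin 10), t (lift β.val) • fun m => ind β.val (m.map C.c)),
      map_sum, Finset.sum_eq_zero] at ht3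
    · exact zero_ne_one ht3
    · intro β _
      rw [map_smul]
      change _ • N β = 0
      rw [hno β, smul_zero]
    · intro m hm
      rw [hlift m hm]
      simp only [Finset.sum_apply, Pi.smul_apply, smul_eq_mul]
      by_cases hnd : (m.map C.c).Nodup
      · rw [Finset.sum_eq_single ⟨m.map C.c, hnd⟩, ind_self, mul_one]
        · intro β _ hne
          rw [ind_of_ne fun h => hne (Finset.val_inj.mp h.symm), mul_zero]
        · simp
      · rw [Finset.sum_eq_zero]
        · by_contra hne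
          exact hnd (Multiset.Nodup.of_map _ (ht1 _ hne))
        · intro β _
          rw [ind_of_ne fun h => hnd (by rw [h]; exact β.nodup), mul_zero]
  obtain ⟨ρ, hρ⟩ := hex
  refine ⟨ρ, (hNK ρ hρ).1, (hNK ρ hρ).2, fun a ha => ?_⟩
  by_contra hno
  push Not at hno
  have h0 := hL2 (by norm_num) (fun m => ind (ρ.erase a).val (m.map C.c)) (fun m => by
    simp only [Multiset.map_map, Function.comp_def, C.c_neg])
  have h1 : cob (fun m : Multiset E4 => ind (ρ.erase a).val (m.map C.c)) =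
      ∑ v ∈ Finset.univ.filter (fun v => v ∉ (ρ.erase a).val),
        fun m => ind (v ::ₘ (ρ.erase a).val) (m.map C.c) := by
    funext m
    rw [cob_map C.c (ind (ρ.erase a).val), cob_ind (ρ.erase a).nodup, Finset.sum_apply]
  rw [h1, map_sum, Finset.sum_eq_single a] at h0
  · apply hρ
    rw [Finset.erase_val, Multiset.cons_erase ha] at h0
    exact h0
  · intro b hb hba
    have hb' : b ∉ ρ.erase a := (Finset.mem_filter.mp hb).2
    have hb'' : b ∉ ρ := fun h => hb' (Finset.mem_erase.mpr ⟨hba, h⟩)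
    rw [← Finset.insert_val_of_notMem hb']
    by_contra hne
    exact hno b hb'' (hNK _ hne).2
  · intro h
    exact absurd (Finset.mem_filter.mpr ⟨Finset.mem_univ a, Finset.notMem_erase a ρ⟩) h

end Crest.Agent.R50
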