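import Crest.Agent.R50.TwoGraph
import Crest.Agent.R50.Final
import Crest.Agent.R50.Star
import Crest.Agent.R50.Eta
import Crest.Agent.R50.Reduce

/-! No ten-class cover of the three-sphere exists. -/

set_option autoImplicit false

open Module

namespace Crest.Agent.R50

theorem no_cover (C : Cover E4 (Fin 10)) : False := by
  obtain ⟨w, hw0, hws, hw⟩ := exists_two_graph C
  obtain ⟨a, b, d, habd⟩ := exists_nonface_triple C
  obtain ⟨V, hV1, -, hV2⟩ := exists_split C {a, b, d}
  have hVc : ∀ i, C.Sees V i → i = a ∨ i = b ∨ i = d := by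
    intro i hi
    simpa using hV2 i hi
  have hV : 2 ≤ finrank ℝ V := by
    by_contra hlt
    exact habd (K_of_finrank_le_one C V (by omega) _ hV1)
  have hodd : w a b + w b d + w a d = 1 := by
    have h := (hw a b d).not.mp habd
    revert h
    generalize w a b + w b d + w a d = s
    revert s
    decide
  obtain ⟨η, δ, hδ, hη1, hη2⟩ :=
    exists_eta C w hw0 hws (fun i j k h => (hw i j k).mp h) a b d hodd V hV hVc
  obtain ⟨ρ, hρ, hρK, hstar⟩ := exists_star C w hw0 η δ hδ hη1 hη2
  refine final C.K w hw0 hws (fun σ => ⟨fun h i hi j hj k hk => (hw i j k).mp (C.K_mono ?_ h),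
    K_of_balanced C w η δ hδ hη1 hη2 σ⟩) (K_card_le C) (not_K_three C) (tight C) ρ hρ hρK hstar
  intro x hx
  simp only [Finset.mem_insert, Finset.mem_singleton] at hx
  rcases hx with rfl | rfl | rfl <;> assumption

end Crest.Agent.R50
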