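import Crest.Agent.R50.Split

/-! Elementary properties of the nerve of a ten-class cover of the three-sphere. -/

set_option autoImplicit false

open scoped RealInnerProductSpace
open Module

namespace Crest.Agent.R50

section general
variable {E : Type} [NormedAddCommGroup E] [InnerProductSpace ℝ E] [FiniteDimensional ℝ E]
  {ι : Type} (C : Cover E ι)

/-- A line (or zero) sees only a face. -/
theorem K_of_finrank_le_one (V : Submodule ℝ E) (hV : finrank ℝ V ≤ 1)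
    (σ : Finset ι) (hσ : ∀ i ∈ σ, C.Sees V i) : C.K σ := by
  by_cases h : σ.Nonempty
  · obtain ⟨j, hj⟩ := h
    obtain ⟨x, hxV, hx⟩ := hσ j hj
    refine ⟨x, fun i hi => ?_⟩
    obtain ⟨y, hyV, hy⟩ := hσ i hi
    have hx1 := C.unit _ _ hx
    have hy1 := C.unit _ _ hy
    have hxy : 1 ≤ ⟪y, x⟫ ^ 2 := by
      obtain ⟨v, hv⟩ := finrank_le_one_iff.mp hV
      obtain ⟨a, ha⟩ := hv ⟨x, hxV⟩
      obtain ⟨b, hb⟩ := hv ⟨y, hyV⟩
      have ha' : a • (v : E) = x := congrArg Subtype.val ha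
      have hb' : b • (v : E) = y := congrArg Subtype.val hb
      have h1 : ‖x‖ ^ 2 = a ^ 2 * ‖(v : E)‖ ^ 2 := by
        rw [← ha', norm_smul, mul_pow, Real.norm_eq_abs, sq_abs]
      have h2 : ‖y‖ ^ 2 = b ^ 2 * ‖(v : E)‖ ^ 2 := by
        rw [← hb', norm_smul, mul_pow, Real.norm_eq_abs, sq_abs]
      have h3 : ⟪y, x⟫ = b * a * ‖(v : E)‖ ^ 2 := by
        rw [← ha', ← hb', inner_smul_left, inner_smul_right, real_inner_self_eq_norm_sq]
        simp [mul_assoc]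
      have h4 : ⟪y, x⟫ ^ 2 = ‖x‖ ^ 2 * ‖y‖ ^ 2 := by
        rw [h1, h2, h3]
        ring
      rw [h4, hx1, hy1]
      norm_num
    rcases eq_or_eq_neg_of_inner_sq hy1 hx1 hxy with rfl | rfl
    · exact hy
    · exact C.neg _ _ hy
  · rw [Finset.not_nonempty_iff_eq_empty] at h
    subst h
    exact ⟨0, by simp⟩

/-- The colours of a plane are not contained in a face. -/
theorem not_K_of_two_le (V : Submodule ℝ E) (hV : 2 ≤ finrank ℝ V) (σ : Finset ι)
    (hσ : ∀ i, C.Sees V i → i ∈ σ) : ¬ C.K σ := by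
  rintro ⟨x, hx⟩
  have h1 := finrank_inf_orth V x
  obtain ⟨u, ⟨huV, hux⟩, hu⟩ := exists_unit_mem (V ⊓ (ℝ ∙ x)ᗮ) (by omega)
  obtain ⟨i, hi⟩ := C.cover u hu
  exact C.orth i x (hx i (hσ i ⟨u, huV, hi⟩)) u hi
    (Submodule.mem_orthogonal_singleton_iff_inner_right.mp hux)

theorem card_sees [Fintype ι] [DecidableEq ι] (n : ℕ) (V : Submodule ℝ E) (hV : n ≤ finrank ℝ V)
    (σ : Finset ι) (hσ : ∀ i, C.Sees V i → i ∈ σ) : n * (n + 1) ≤ 2 * σ.card := by
  induction n generalizing V σ with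
  | zero => simp
  | succ n ih =>
    obtain ⟨x, hxV, τ, hτ, hx⟩ := exists_colours C V (n + 1) hV
    have h1 := finrank_inf_orth V x
    have h2 := ih (V ⊓ (ℝ ∙ x)ᗮ) (by omega) (σ \ τ) (by
      rintro i ⟨y, ⟨hyV, hyx⟩, hy⟩
      rw [Finset.mem_sdiff]
      exact ⟨hσ i ⟨y, hyV, hy⟩, fun hi => C.orth i x (hx i hi) y hy
        (Submodule.mem_orthogonal_singleton_iff_inner_right.mp hyx)⟩)
    have h3 : τ ⊆ σ := fun i hi => hσ i ⟨x, hxV, hx i hi⟩
    have h4 := Finset.card_sdiff_add_card_eq_card h3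
    nlinarith

/-- Restriction of a cover to a subspace and to a set of colours containing all it sees. -/
def Cover.restrict (V : Submodule ℝ E) (σ : Finset ι) (hσ : ∀ i, C.Sees V i → i ∈ σ) :
    Cover V σ where
  F i := {x | (x : E) ∈ C.F i}
  closed i := (C.closed i).preimage continuous_subtype_val
  unit i x hx := C.unit i x hx
  neg i x hx := C.neg i x hx
  cover x hx := by
    obtain ⟨i, hi⟩ := C.cover x hx
    exact ⟨⟨i, hσ i ⟨x, x.2, hi⟩⟩, hi⟩
  orth i x hx y hy := C.orth i x hx y hy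

end general

variable (C : Cover E4 (Fin 10))

theorem exists_split (σ : Finset (Fin 10)) :
    ∃ V : Submodule ℝ E4, (∀ i ∈ σ, C.Sees V i) ∧ (∀ i ∉ σ, C.Sees Vᗮ i) ∧
      ∀ i, C.Sees V i → i ∈ σ := by
  obtain ⟨V, h1, h2⟩ := exists_split' C 4 (by simp) (by norm_num) (by simp) (by decide) σ
  refine ⟨V, h1, h2, fun i hi => ?_⟩
  by_contra hne
  exact C.not_sees_orth hi (h2 i hne)

theorem K_of_card_le_two (σ : Finset (Fin 10)) (h : σ.card ≤ 2) : C.K σ := by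
  obtain ⟨V, h1, -, h3⟩ := exists_split C σ
  apply K_of_finrank_le_one C V _ σ h1
  by_contra hlt
  have := card_sees C 2 V (by omega) σ h3
  omega

theorem K_pair (i j : Fin 10) : C.K {i, j} := K_of_card_le_two C _ Finset.card_le_two

theorem not_K_three (A B D : Finset (Fin 10)) (hA : C.K A) (hB : C.K B) (hD : C.K D) :
    A ∪ B ∪ D ≠ Finset.univ := by
  intro h
  obtain ⟨x, hx⟩ := hA
  obtain ⟨y, hy⟩ := hB
  have h1 := finrank_inf_orth (⊤ : Submodule ℝ E4) x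
  have h2 := finrank_inf_orth (⊤ ⊓ (ℝ ∙ x)ᗮ : Submodule ℝ E4) y
  have h3 : finrank ℝ (⊤ : Submodule ℝ E4) = 4 := by simp
  refine not_K_of_two_le C (⊤ ⊓ (ℝ ∙ x)ᗮ ⊓ (ℝ ∙ y)ᗮ) (by omega) D ?_ hD
  rintro i ⟨u, ⟨⟨-, hux⟩, huy⟩, hu⟩
  have hi : i ∈ A ∪ B ∪ D := h ▸ Finset.mem_univ i
  simp only [Finset.mem_union] at hi
  rcases hi with (hi | hi) | hi
  · exact absurd (Submodule.mem_orthogonal_singleton_iff_inner_right.mp hux)
      (C.orth i x (hx i hi) u hu)
  · exact absurd (Submodule.mem_orthogonal_singleton_iff_inner_right.mp huy)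
      (C.orth i y (hy i hi) u hu)
  · exact hi

theorem sees_orth_of_K {σ : Finset (Fin 10)} {x : E4} (hx : ∀ i ∈ σ, x ∈ C.F i) (i : Fin 10)
    (hi : C.Sees (ℝ ∙ x)ᗮ i) : i ∈ σᶜ := by
  obtain ⟨u, hux, hu⟩ := hi
  rw [Finset.mem_compl]
  exact fun hi => C.orth i x (hx i hi) u hu
    (Submodule.mem_orthogonal_singleton_iff_inner_right.mp hux)

theorem three_le_finrank_orth (x : E4) : 3 ≤ finrank ℝ (ℝ ∙ x)ᗮ := by
  have h1 := finrank_inf_orth (⊤ : Submodule ℝ E4) x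
  have h3 : finrank ℝ (⊤ : Submodule ℝ E4) = 4 := by simp
  rw [top_inf_eq] at h1
  omega

theorem K_card_le (σ : Finset (Fin 10)) (h : C.K σ) : σ.card ≤ 4 := by
  obtain ⟨x, hx⟩ := h
  have h1 := card_sees C 3 _ (three_le_finrank_orth x) σᶜ (sees_orth_of_K C hx)
  rw [Finset.card_compl, Fintype.card_fin] at h1
  omega

theorem exists_K_four : ∃ σ : Finset (Fin 10), σ.card = 4 ∧ C.K σ := by
  obtain ⟨x, -, σ, h1, h2⟩ := exists_colours C ⊤ 4 (by simp)
  exact ⟨σ, h1, x, h2⟩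

theorem exists_nonface_triple : ∃ a b d : Fin 10, ¬ C.K {a, b, d} := by
  obtain ⟨σ, h1, h2⟩ := exists_K_four C
  by_contra hno
  push Not at hno
  have h3 : σᶜ.card = 6 := by rw [Finset.card_compl, Fintype.card_fin, h1]
  obtain ⟨τ, hτ, hτ3⟩ := Finset.exists_subset_card_eq (s := σᶜ) (n := 3) (by omega)
  have h4 : (σᶜ \ τ).card = 3 := by rw [Finset.card_sdiff_of_subset hτ]; omega
  obtain ⟨a, b, d, -, -, -, h5⟩ := Finset.card_eq_three.mp hτ3
  obtain ⟨a', b', d', -, -, -, h6⟩ := Finset.card_eq_three.mp h4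
  refine not_K_three C σ τ (σᶜ \ τ) h2 (h5 ▸ hno a b d) (h6 ▸ hno a' b' d') ?_
  rw [Finset.union_assoc, Finset.union_sdiff_of_subset hτ, Finset.union_compl]

/-- Tightness of the complement of a tetrahedron. -/
theorem tight (ρ : Finset (Fin 10)) (hρ : ρ.card = 4) (hK : C.K ρ) (τ : Finset (Fin 10))
    (hτ : τ ⊆ ρᶜ) : C.K τ ∨ C.K (ρᶜ \ τ) := by
  obtain ⟨x, hx⟩ := hK
  have hx0 : x ≠ 0 := by
    obtain ⟨i, hi⟩ := Finset.card_pos.mp (show 0 < ρ.card by omega)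
    have := C.unit _ _ (hx i hi)
    rintro rfl
    simp at this
  have h3 : finrank ℝ (ℝ ∙ x)ᗮ = 3 := by
    have h1 := Submodule.finrank_add_finrank_orthogonal (ℝ ∙ x)
    rw [finrank_span_singleton hx0] at h1
    have : finrank ℝ E4 = 4 := by simp
    omega
  have hc : Fintype.card (ρᶜ : Finset (Fin 10)) = 6 := by
    rw [Fintype.card_coe, Finset.card_compl, Fintype.card_fin, hρ]
  let C' := C.restrict (ℝ ∙ x)ᗮ ρᶜ (sees_orth_of_K C hx)
  obtain ⟨V, h1, h2⟩ := exists_split' C' 3 h3 (by norm_num) (by omega) (by rw [hc]; decide)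
    (Finset.univ.filter fun i => i.1 ∈ τ)
  have h4 := Submodule.finrank_add_finrank_orthogonal V
  by_cases hV : finrank ℝ V ≤ 1
  · left
    obtain ⟨y, hy⟩ := K_of_finrank_le_one C' V hV _ h1
    exact ⟨y, fun i hi => hy ⟨i, hτ hi⟩ (by simpa using hi)⟩
  · right
    obtain ⟨y, hy⟩ := K_of_finrank_le_one C' Vᗮ (by omega)
      (Finset.univ.filter fun i => i.1 ∉ τ) (fun i hi => h2 i (by simpa using hi))
    exact ⟨y, fun i hi => hy ⟨i, (Finset.mem_sdiff.mp hi).1⟩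
      (by simpa using (Finset.mem_sdiff.mp hi).2)⟩

end Crest.Agent.R50
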