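import Crest.Agent.R50.Defs

/-! Skeleton of the proof of S0069 (statements only; each lemma is proved in its own file and
this file is never imported by the final proof). -/

set_option autoImplicit false

open scoped RealInnerProductSpace
open Module

namespace Crest.Agent.R50.Skel

open Crest.Agent.R50

/-- [Chain.lean] fine hemisphere chain + Ky Fan. -/
theorem exists_hemisphere {E : Type} [NormedAddCommGroup E] [InnerProductSpace ℝ E]
    [FiniteDimensional ℝ E] (W : Submodule ℝ E) (n : ℕ) (hn : n + 1 ≤ finrank ℝ W) {δ : ℝ}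
    (hδ : 0 < δ) :
    ∃ L : (Multiset E → ZMod 2) →ₗ[ZMod 2] ZMod 2,
      (∀ φ, (∀ m, Small W δ (n + 1) m → φ m = 0) → L φ = 0) ∧
      (0 < n → ∀ φ, (∀ m, φ (m.map Neg.neg) = φ m) → L (cob φ) = 0) ∧
      ∀ (Y : Type) (ν : Y → Y) (lab : E → Y), Function.Involutive ν →
        (∀ x ∈ W, ‖x‖ = 1 → lab (-x) = ν (lab x)) →
        (∀ x ∈ W, ∀ y ∈ W, ‖x‖ = 1 → ‖y‖ = 1 → dist x y ≤ δ → lab y ≠ ν (lab x)) →
        ∃ t : Multiset Y → ZMod 2, (∀ M, t M ≠ 0 → M.Nodup) ∧ (∀ M, t (M.map ν) = t M) ∧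
          L (fun m => t (m.map lab)) = 1 := sorry

/-- [Basic.lean] Lebesgue number lemma for finitely many closed sets. -/
theorem lebesgue_closed {X D : Type} [PseudoMetricSpace X] [Finite D] {S : Set X}
    (hS : IsCompact S) (A : D → Set X) (hA : ∀ d, IsClosed (A d)) :
    ∃ δ > 0, ∀ x ∈ S, ∃ z ∈ S, ∀ d, (∃ y ∈ A d, dist x y ≤ δ) → z ∈ A d := sorry

section general
variable {E : Type} [NormedAddCommGroup E] [InnerProductSpace ℝ E] [FiniteDimensional ℝ E]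
  {ι : Type} [Fintype ι] [DecidableEq ι] (C : Cover E ι)

/-- [Colours.lean] a subspace of dimension `≥ n` has a point with `n` colours. -/
theorem exists_colours (W : Submodule ℝ E) (n : ℕ) (hn : n ≤ finrank ℝ W) :
    ∃ x ∈ W, ∃ σ : Finset ι, σ.card = n ∧ ∀ i ∈ σ, x ∈ C.F i := sorry

/-- [Split.lean] tight case: every set of colours is the colour set of a subspace. -/
theorem exists_split (d : ℕ) (hd : finrank ℝ E = d) (hι : 2 * Fintype.card ι = d * (d + 1))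
    (σ : Finset ι) :
    ∃ V : Submodule ℝ E, (∀ i ∈ σ, C.Sees V i) ∧ ∀ i ∉ σ, C.Sees Vᗮ i := sorry

end general

variable (C : Cover E4 (Fin 10))

/-- [Nerve.lean] -/
theorem K_pair (i j : Fin 10) : C.K {i, j} := sorry

/-- [Nerve.lean] -/
theorem not_K_three (A B D : Finset (Fin 10)) (hA : C.K A) (hB : C.K B) (hD : C.K D) :
    A ∪ B ∪ D ≠ Finset.univ := sorry

/-- [Nerve.lean] -/
theorem K_card_le (σ : Finset (Fin 10)) (h : C.K σ) : σ.card ≤ 4 := sorry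

/-- [Nerve.lean] -/
theorem exists_K_four : ∃ σ : Finset (Fin 10), σ.card = 4 ∧ C.K σ := sorry

/-- [Nerve.lean] tightness of the complement of a tetrahedron (`exists_split` in `xᗮ`). -/
theorem tight (ρ : Finset (Fin 10)) (hρ : ρ.card = 4) (hK : C.K ρ) (τ : Finset (Fin 10))
    (hτ : τ ⊆ ρᶜ) : C.K τ ∨ C.K (ρᶜ \ τ) := sorry

/-- [TwoGraph.lean] the non-face triples form a two-graph. -/
theorem exists_two_graph : ∃ w : Fin 10 → Fin 10 → ZMod 2, (∀ i, w i i = 0) ∧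
    (∀ i j, w i j = w j i) ∧ ∀ i j k, C.K {i, j, k} ↔ w i j + w j k + w i k = 0 := sorry

/-- [Eta.lean] odd lift of the two-graph cocycle to the three-sphere. -/
theorem exists_eta (w : Fin 10 → Fin 10 → ZMod 2) (hw0 : ∀ i, w i i = 0)
    (hws : ∀ i j, w i j = w j i)
    (hw : ∀ i j k, C.K {i, j, k} → w i j + w j k + w i k = 0)
    (a b d : Fin 10) (hodd : w a b + w b d + w a d = 1)
    (V : Submodule ℝ E4) (hV : 2 ≤ finrank ℝ V)
    (hVc : ∀ i, C.Sees V i → i = a ∨ i = b ∨ i = d) :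
    ∃ η : E4 → ZMod 2, ∃ δ > 0, (∀ x, ‖x‖ = 1 → η (-x) = η x + 1) ∧
      ∀ x y, ‖x‖ = 1 → ‖y‖ = 1 → dist x y ≤ δ → η x + η y = w (C.c x) (C.c y) := sorry

/-- [Star.lean] a balanced set of colours is a face of the nerve. -/
theorem K_of_balanced (w : Fin 10 → Fin 10 → ZMod 2) (η : E4 → ZMod 2) (δ : ℝ) (hδ : 0 < δ)
    (hη1 : ∀ x, ‖x‖ = 1 → η (-x) = η x + 1)
    (hη2 : ∀ x y, ‖x‖ = 1 → ‖y‖ = 1 → dist x y ≤ δ → η x + η y = w (C.c x) (C.c y))
    (σ : Finset (Fin 10))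
    (hσ : ∀ i ∈ σ, ∀ j ∈ σ, ∀ k ∈ σ, w i j + w j k + w i k = 0) : C.K σ := sorry

/-- [Star.lean] a tetrahedron none of whose triangles is free. -/
theorem exists_star (w : Fin 10 → Fin 10 → ZMod 2) (hw0 : ∀ i, w i i = 0)
    (η : E4 → ZMod 2) (δ : ℝ) (hδ : 0 < δ)
    (hη1 : ∀ x, ‖x‖ = 1 → η (-x) = η x + 1)
    (hη2 : ∀ x y, ‖x‖ = 1 → ‖y‖ = 1 → dist x y ≤ δ → η x + η y = w (C.c x) (C.c y)) :
    ∃ ρ : Finset (Fin 10), ρ.card = 4 ∧ C.K ρ ∧
      ∀ a ∈ ρ, ∃ b ∉ ρ, C.K (insert b (ρ.erase a)) := sorry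

/-- [Final.lean] the finite combinatorial contradiction. -/
theorem final (K : Finset (Fin 10) → Prop) (w : Fin 10 → Fin 10 → ZMod 2) (hw0 : ∀ i, w i i = 0)
    (hws : ∀ i j, w i j = w j i)
    (hK : ∀ σ, K σ ↔ ∀ i ∈ σ, ∀ j ∈ σ, ∀ k ∈ σ, w i j + w j k + w i k = 0)
    (hcard : ∀ σ, K σ → σ.card ≤ 4)
    (hthree : ∀ A B D, K A → K B → K D → A ∪ B ∪ D ≠ Finset.univ)
    (htight : ∀ ρ, ρ.card = 4 → K ρ → ∀ τ ⊆ ρᶜ, K τ ∨ K (ρᶜ \ τ))
    (ρ : Finset (Fin 10)) (hρ : ρ.card = 4) (hρK : K ρ)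
    (hstar : ∀ a ∈ ρ, ∃ b ∉ ρ, K (insert b (ρ.erase a))) : False := sorry

/-- [Nerve.lean] a line (or zero) sees only a face. -/
theorem K_of_finrank_le_one (V : Submodule ℝ E4) (hV : finrank ℝ V ≤ 1)
    (σ : Finset (Fin 10)) (hσ : ∀ i ∈ σ, C.Sees V i) : C.K σ := sorry

/-- [Nerve.lean] some triple is not a face. -/
theorem exists_nonface_triple : ∃ a b d : Fin 10, ¬ C.K {a, b, d} := sorry

/-- [Main.lean] -/
theorem no_cover (C : Cover E4 (Fin 10)) : False := by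
  obtain ⟨w, hw0, hws, hw⟩ := exists_two_graph C
  obtain ⟨a, b, d, habd⟩ := exists_nonface_triple C
  obtain ⟨V, hV1, hV2⟩ := exists_split C 4 (by simp) (by simp) {a, b, d}
  have hVc : ∀ i, C.Sees V i → i = a ∨ i = b ∨ i = d := by
    intro i hi
    by_contra hne
    exact C.not_sees_orth hi (hV2 i (by simpa using hne))
  have hV : 2 ≤ finrank ℝ V := by
    by_contra hlt
    exact habd (K_of_finrank_le_one C V (by omega) _ hV1)
  have hodd : w a b + w b d + w a d = 1 := by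
    have h := (hw a b d).not.mp habd
    revert h
    generalize w a b + w b d + w a d = s
    revert s
    decide
  obtain ⟨η, δ, hδ, hη1, hη2⟩ :=
    exists_eta C w hw0 hws (fun i j k h => (hw i j k).mp h) a b d hodd V hV hVc
  obtain ⟨ρ, hρ, hρK, hstar⟩ := exists_star C w hw0 η δ hδ hη1 hη2
  refine final C.K w hw0 hws (fun σ => ⟨fun h i hi j hj k hk => (hw i j k).mp (C.K_mono ?_ h),
    K_of_balanced C w η δ hδ hη1 hη2 σ⟩) (K_card_le C) (not_K_three C) (tight C) ρ hρ hρK hstar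
  intro x hx
  simp only [Finset.mem_insert, Finset.mem_singleton] at hx
  rcases hx with rfl | rfl | rfl <;> assumption

/-- [Reduce.lean] Veronese embedding: the statement follows from `no_cover`. -/
theorem reduce (h : Cover E4 (Fin 10) → False) :
    ∃ S : Set (EuclideanSpace ℝ (Fin 9)), Bornology.IsBounded S ∧ S.Nontrivial ∧
      ∀ c : EuclideanSpace ℝ (Fin 9) → Fin 10, ∃ i : Fin 10,
        Metric.diam S ≤ Metric.diam (S ∩ c ⁻¹' {i}) := sorry

end Crest.Agent.R50.Skel
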