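import Crest.Agent.R50.Sym

/-! Labelling forms by the colours of their extremal vectors; every facet is hit oddly often. -/

set_option autoImplicit false

open scoped RealInnerProductSpace
open Module

namespace Crest.Agent.R50

section facet
variable {ι : Type} [Fintype ι] [DecidableEq ι]

/-- The sign change on signed colours. -/
def flip (p : ι × Bool) : ι × Bool := (p.1, !p.2)

omit [Fintype ι] [DecidableEq ι] in
theorem flip_invol : Function.Involutive (flip : ι × Bool → ι × Bool) := fun p => by simp [flip]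

/-- A signed simplex with positive part `A` and negative part `B`. -/
def signed (A B : Multiset ι) : Multiset (ι × Bool) :=
  A.map (fun i => (i, true)) + B.map (fun i => (i, false))

omit [Fintype ι] in
theorem signed_inj {A B A' B' : Multiset ι} (h : signed A B = signed A' B') :
    A = A' ∧ B = B' := by
  have key : ∀ (s : Bool) (i : ι) (A B : Multiset ι), Multiset.count (i, s) (signed A B) =
      if s then Multiset.count i A else Multiset.count i B := by
    intro s i A B
    have h1 : ∀ (s : Bool) (A : Multiset ι), Multiset.count (i, s) (A.map fun j => (j, s)) =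
        Multiset.count i A := fun s A =>
      Multiset.count_map_eq_count' _ _ (fun a b h => (Prod.mk.inj h).1) i
    cases s <;> simp [signed, h1]
  constructor
  · ext i
    simpa [key] using congrArg (Multiset.count (i, true)) h
  · ext i
    simpa [key] using congrArg (Multiset.count (i, false)) h

/-- The facet of the cross-polytope with positive part `σ`. -/
def facet (σ : Finset ι) : Multiset (ι × Bool) := signed σ.val σᶜ.val

theorem mem_facet {σ : Finset ι} {p : ι × Bool} : p ∈ facet σ ↔ (p.2 = true ↔ p.1 ∈ σ) := by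
  obtain ⟨i, s⟩ := p
  cases s <;> simp [facet, signed]

theorem card_facet (σ : Finset ι) : (facet σ).card = Fintype.card ι := by
  simp [facet, signed, Finset.card_compl, Finset.card_le_univ]

theorem facet_inj {σ τ : Finset ι} (h : facet σ = facet τ) : σ = τ :=
  Finset.val_inj.mp (signed_inj h).1

theorem nodup_facet (σ : Finset ι) : (facet σ).Nodup := by
  unfold facet signed
  rw [Multiset.nodup_add]
  refine ⟨σ.nodup.map fun a b h => (Prod.mk.inj h).1, σᶜ.nodup.map fun a b h => (Prod.mk.inj h).1,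
    ?_⟩
  rw [Multiset.disjoint_left]
  simp

theorem exists_facet {M : Multiset (ι × Bool)} (h1 : M.Nodup) (h2 : Good flip M)
    (h3 : M.card = Fintype.card ι) : ∃ σ, M = facet σ := by
  refine ⟨Finset.univ.filter fun i => (i, true) ∈ M, Multiset.eq_of_le_of_card_le ?_ ?_⟩
  · rw [Multiset.le_iff_subset h1]
    rintro ⟨i, s⟩ hp
    rw [mem_facet]
    cases s
    · simpa using fun h => h2 _ h _ hp rfl
    · simpa using hp
  · rw [card_facet, h3]

/-- Every facet has coefficient one in the labelled fundamental cycle. -/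
theorem facet_one [Nonempty ι] {X : Type} (neg : X → X) (lab : X → ι × Bool)
    (Sm : Multiset X → Prop) (hSm : ∀ m, Sm m → Sm (m.map neg))
    (hcard : ∀ m, Sm m → m.card = Fintype.card ι) (hgood : ∀ m, Sm m → Good flip (m.map lab))
    (hodd : ∀ m, Sm m → (m.map neg).map lab = (m.map lab).map flip)
    (L : (Multiset X → ZMod 2) →ₗ[ZMod 2] ZMod 2)
    (hL : ∀ φ, (∀ m, Sm m → φ m = 0) → L φ = 0)
    (Z : (Multiset X → ZMod 2) →ₗ[ZMod 2] ZMod 2)
    (hZ : ∀ φ, Z φ = L fun m => φ m + φ (m.map neg)) (hZc : ∀ φ, Z (cob φ) = 0)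
    (t : Multiset (ι × Bool) → ZMod 2) (ht1 : ∀ M, t M ≠ 0 → M.Nodup)
    (ht2 : ∀ M, t (M.map flip) = t M) (ht3 : L (fun m => t (m.map lab)) = 1) (σ : Finset ι) :
    Z (fun m => ind (facet σ) (m.map lab)) = 1 := by
  have hZ0 : ∀ φ, (∀ m, Sm m → φ m = 0) → Z φ = 0 := by
    intro φ hφ
    rw [hZ]
    apply hL
    intro m hm
    rw [hφ m hm, hφ _ (hSm m hm), add_zero]
  have hZcongr : ∀ φ ψ : Multiset X → ZMod 2, (∀ m, Sm m → φ m = ψ m) → Z φ = Z ψ := by
    intro φ ψ h
    have := hZ0 (φ - ψ) (fun m hm => by simp [h m hm])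
    rwa [map_sub, sub_eq_zero] at this
  set N : Finset ι → ZMod 2 := fun σ => Z (fun m => ind (facet σ) (m.map lab)) with hN
  have hstep : ∀ (τ : Finset ι) (i : ι), i ∉ τ → N (insert i τ) = N τ := by
    intro τ i hi
    have hmem : (i, false) ∈ facet τ := by simp [mem_facet, hi]
    obtain ⟨R, hR⟩ := Multiset.exists_cons_of_mem hmem
    have hnd := nodup_facet τ
    rw [hR, Multiset.nodup_cons] at hnd
    have hR' : facet (insert i τ) = (i, true) ::ₘ R := by
      have hRm : ∀ p, p ∈ R ↔ p ∈ facet τ ∧ p ≠ (i, false) := by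
        intro p
        rw [hR, Multiset.mem_cons]
        constructor
        · intro hp
          exact ⟨Or.inr hp, fun h => hnd.1 (h ▸ hp)⟩
        · rintro ⟨h | h, h'⟩
          · exact absurd h h'
          · exact h
      apply Multiset.eq_of_le_of_card_le
      · rw [Multiset.le_iff_subset (nodup_facet _)]
        rintro ⟨j, s⟩ hp
        rw [Multiset.mem_cons, hRm, mem_facet]
        rw [mem_facet] at hp
        simp only [Finset.mem_insert] at hp
        by_cases hj : j = i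
        · subst hj
          left
          simpa using hp
        · right
          simpa [hj] using hp
      · rw [card_facet, ← card_facet τ, hR]
        simp
    have h0 := hZc (fun m => ind R (m.map lab))
    rw [hZcongr _ ((fun m => ind (facet (insert i τ)) (m.map lab)) +
      fun m => ind (facet τ) (m.map lab)), map_add] at h0
    · have h2 := z2_add_self (N τ)
      simp only [hN] at h2 ⊢
      linear_combination h0 - h2
    · intro m hm
      rw [cob_map lab (ind R), cob_ind hnd.2, Pi.add_apply, hR', hR]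
      have hi1 : (i, true) ∉ R := by
        intro h
        have : (i, true) ∈ facet τ := by rw [hR]; exact Multiset.mem_cons_of_mem h
        simp [mem_facet, hi] at this
      rw [← Finset.sum_pair (f := fun v => ind (v ::ₘ R) (m.map lab))
        (show (i, true) ≠ (i, false) by simp)]
      symm
      apply Finset.sum_subset
      · intro v hv
        simp only [Finset.mem_insert, Finset.mem_singleton] at hv
        rcases hv with rfl | rfl <;> simp [hi1, hnd.1]
      · rintro ⟨j, s⟩ hv hv'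
        apply ind_of_ne
        intro heq
        have hg := hgood m hm
        rw [heq] at hg
        have hji : j ≠ i := by
          rintro rfl
          cases s <;> simp at hv'
        have hjs : (j, s) ∉ R := by simpa using hv
        have : (j, !s) ∈ R := by
          have h1 : (j, s) ∉ facet τ := by
            rw [hR, Multiset.mem_cons]
            simp [hji, hjs]
          have h2 : (j, !s) ∈ facet τ := by
            rw [mem_facet] at h1 ⊢
            cases s <;> simp_all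
          rw [hR, Multiset.mem_cons] at h2
          simpa [hji] using h2
        exact hg (j, s) (Multiset.mem_cons_self _ _) (j, !s) (Multiset.mem_cons_of_mem this) rfl
  have hconst : ∀ τ, N τ = N ∅ := by
    intro τ
    induction τ using Finset.induction_on with
    | empty => rfl
    | insert i τ hi ih => rw [hstep τ i hi, ih]
  obtain ⟨i₀⟩ := ‹Nonempty ι›
  let a : Multiset (ι × Bool) → ZMod 2 := fun M => if (i₀, true) ∈ M then t M else 0
  have h1 : Z (fun m => a (m.map lab)) = 1 := by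
    rw [hZ, ← ht3, ← sub_eq_zero, ← map_sub]
    apply hL
    intro m hm
    simp only [Pi.sub_apply, hodd m hm, a, ht2]
    by_cases ht : t (m.map lab) = 0
    · simp [ht]
    · obtain ⟨τ, hτ⟩ := exists_facet (ht1 _ ht) (hgood m hm) (by simpa using hcard m hm)
      have hfl : (i₀, true) ∈ (m.map lab).map flip ↔ (i₀, false) ∈ m.map lab := by
        rw [show ((i₀, true) : ι × Bool) = flip (i₀, false) from rfl,
          Multiset.mem_map_of_injective flip_invol.injective]
      simp only [hfl]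
      rw [hτ]
      by_cases h : i₀ ∈ τ <;> simp [mem_facet, h]
  have h2 : Z (fun m => a (m.map lab)) = ∑ τ : Finset ι, a (facet τ) * N τ := by
    rw [hZcongr _ (∑ τ : Finset ι, a (facet τ) • fun m => ind (facet τ) (m.map lab)), map_sum]
    · simp [hN]
    · intro m hm
      simp only [Finset.sum_apply, Pi.smul_apply, smul_eq_mul]
      by_cases hτ : ∃ τ, m.map lab = facet τ
      · obtain ⟨τ, hτ⟩ := hτ
        rw [hτ, Finset.sum_eq_single τ, ind_self, mul_one]
        · intro τ' _ hne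
          rw [ind_of_ne (fun h => hne (facet_inj h).symm), mul_zero]
        · simp
      · rw [Finset.sum_eq_zero]
        · by_contra hne
          have ht : t (m.map lab) ≠ 0 := by
            intro h
            simp [a, h] at hne
          exact hτ (exists_facet (ht1 _ ht) (hgood m hm) (by simpa using hcard m hm))
        · intro τ _
          rw [ind_of_ne (fun h => hτ ⟨τ, h⟩), mul_zero]
  have h3 : N σ ≠ 0 := by
    intro h0
    rw [h2, Finset.sum_eq_zero] at h1
    · exact zero_ne_one h1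
    · intro τ _
      rw [hconst τ, ← hconst σ, h0, mul_zero]
  change N σ = 1
  generalize N σ = s at h3
  revert s
  decide

end facet

section labels
variable {P E : Type} [NormedAddCommGroup P] [InnerProductSpace ℝ P] [FiniteDimensional ℝ P]
  [NormedAddCommGroup E] [InnerProductSpace ℝ E] [FiniteDimensional ℝ E]
  {ι : Type} (C : Cover E ι) (S : SymFam P E)

/-- The finite datum attached to a form: sign, region, and three colours. -/
abbrev Datum (ι : Type) : Type := Bool × Bool × ι × ι × ι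

/-- The closed condition under which the form `z` is compatible with a datum. -/
def AdmW (z : P) (d : Datum ι) (x₁ x₂ x₄ : E) : Prop :=
  S.IsTop z x₁ ∧ S.IsSec z x₁ x₂ ∧ S.IsTop (-z) x₄ ∧
    x₁ ∈ C.F d.2.2.1 ∧ x₂ ∈ C.F d.2.2.2.1 ∧ x₄ ∈ C.F d.2.2.2.2 ∧
    (d.1 = true → S.B (-z) x₄ x₄ ≤ S.B z x₁ x₁) ∧ (d.1 = false → S.B z x₁ x₁ ≤ S.B (-z) x₄ x₄) ∧
    (d.2.1 = true → 0 ≤ S.B z x₂ x₂) ∧ (d.2.1 = false → S.B z x₂ x₂ ≤ 0)

/-- The form `z` is compatible with the datum `d`. -/
def Adm (z : P) (d : Datum ι) : Prop := ∃ x₁ x₂ x₄, AdmW C S z d x₁ x₂ x₄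

omit [InnerProductSpace ℝ P] [FiniteDimensional ℝ P] [FiniteDimensional ℝ E] in
theorem isSec_iff {z : P} {x x' : E} (hx : ‖x‖ = 1) :
    S.IsSec z x x' ↔ ‖x'‖ = 1 ∧ ⟪x, x'⟫ = 0 ∧ ∀ y, S.B z (y - ⟪x, y⟫ • x) (y - ⟪x, y⟫ • x) ≤
      S.B z x' x' * ‖y - ⟪x, y⟫ • x‖ ^ 2 := by
  refine and_congr_right fun _ => and_congr_right fun _ => ⟨fun h y => h _ ?_, fun h y hy => ?_⟩
  · rw [inner_sub_right, inner_smul_right, real_inner_self_eq_norm_sq, hx]
    simp
  · simpa [hy] using h y

theorem isClosed_adm (d : Datum ι) : IsClosed {z : P | ‖z‖ = 1 ∧ Adm C S z d} := by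
  have hc : ∀ {f : P × E × E × E → P} {g : P × E × E × E → E}, Continuous f → Continuous g →
      Continuous fun q => S.B (f q) (g q) (g q) := fun hf hg =>
    S.cont.comp (hf.prodMk hg)
  have hK : IsCompact (Metric.sphere (0 : P) 1 ×ˢ C.F d.2.2.1 ×ˢ C.F d.2.2.2.1 ×ˢ C.F d.2.2.2.2) :=
    (isCompact_sphere _ _).prod ((C.isCompact _).prod ((C.isCompact _).prod (C.isCompact _)))
  have h1 : IsClosed {q : P × E × E × E | ∀ y, S.B q.1 y y ≤ S.B q.1 q.2.1 q.2.1 * ‖y‖ ^ 2} := by
    rw [Set.ofPred_forall]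
    exact isClosed_iInter fun y => isClosed_le (hc (by fun_prop) continuous_const)
      ((hc (by fun_prop) (by fun_prop)).mul continuous_const)
  have h2 : IsClosed {q : P × E × E × E | ∀ y, S.B (-q.1) y y ≤
      S.B (-q.1) q.2.2.2 q.2.2.2 * ‖y‖ ^ 2} := by
    rw [Set.ofPred_forall]
    exact isClosed_iInter fun y => isClosed_le (hc (by fun_prop) continuous_const)
      ((hc (by fun_prop) (by fun_prop)).mul continuous_const)
  have h3 : IsClosed {q : P × E × E × E | ∀ y, S.B q.1 (y - ⟪q.2.1, y⟫ • q.2.1)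
      (y - ⟪q.2.1, y⟫ • q.2.1) ≤ S.B q.1 q.2.2.1 q.2.2.1 * ‖y - ⟪q.2.1, y⟫ • q.2.1‖ ^ 2} := by
    rw [Set.ofPred_forall]
    exact isClosed_iInter fun y => isClosed_le (hc (by fun_prop) (by fun_prop))
      ((hc (by fun_prop) (by fun_prop)).mul (by fun_prop))
  have h4 : IsClosed {q : P × E × E × E | ⟪q.2.1, q.2.2.1⟫ = 0} :=
    isClosed_eq (by fun_prop) continuous_const
  have himp : ∀ (p : Prop) (f g : P × E × E × E → ℝ), Continuous f → Continuous g →
      IsClosed {q | p → f q ≤ g q} := by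
    intro p f g hf hg
    by_cases hp : p
    · simpa [hp] using isClosed_le hf hg
    · simp [hp]
  have h5 := himp (d.1 = true) (fun q => S.B (-q.1) q.2.2.2 q.2.2.2)
    (fun q => S.B q.1 q.2.1 q.2.1) (hc (by fun_prop) (by fun_prop)) (hc (by fun_prop) (by fun_prop))
  have h6 := himp (d.1 = false) (fun q => S.B q.1 q.2.1 q.2.1)
    (fun q => S.B (-q.1) q.2.2.2 q.2.2.2) (hc (by fun_prop) (by fun_prop))
    (hc (by fun_prop) (by fun_prop))
  have h7 := himp (d.2.1 = true) (fun _ => 0) (fun q => S.B q.1 q.2.2.1 q.2.2.1)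
    continuous_const (hc (by fun_prop) (by fun_prop))
  have h8 := himp (d.2.1 = false) (fun q => S.B q.1 q.2.2.1 q.2.2.1) (fun _ => 0)
    (hc (by fun_prop) (by fun_prop)) continuous_const
  have hT := (hK.inter_right (h1.inter (h2.inter (h3.inter (h4.inter (h5.inter (h6.inter
    (h7.inter h8)))))))).image continuous_fst
  convert hT.isClosed using 1
  ext z
  constructor
  · rintro ⟨hz, x₁, x₂, x₄, a1, a2, a3, a4, a5, a6, a7, a8, a9, a10⟩
    rw [isSec_iff S a1.1] at a2
    exact ⟨(z, x₁, x₂, x₄), ⟨⟨by simpa using hz, a4, a5, a6⟩, a1.2, a3.2, a2.2.2, a2.2.1, a7, a8,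
      a9, a10⟩, rfl⟩
  · rintro ⟨⟨z, x₁, x₂, x₄⟩, ⟨⟨hz, a4, a5, a6⟩, a1, a3, a2, a2', a7, a8, a9, a10⟩, rfl⟩
    exact ⟨by simpa using hz, x₁, x₂, x₄, ⟨C.unit _ _ a4, a1⟩,
      (isSec_iff S (C.unit _ _ a4)).mpr ⟨C.unit _ _ a5, a2', a2⟩, ⟨C.unit _ _ a6, a3⟩, a4, a5, a6,
      a7, a8, a9, a10⟩

/-- The signed colour attached to a datum. -/
def Datum.lab (d : Datum ι) : ι × Bool := if d.1 then (d.2.2.1, true) else (d.2.2.2.2, false)

theorem exists_data [Finite ι] [Nonempty ι] (hE : 2 ≤ finrank ℝ E) :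
    ∃ dat : P → Datum ι, ∃ δ > 0, (∀ t, t ≠ 0 → (dat (-t)).lab = flip (dat t).lab) ∧
      ∀ t, ‖t‖ = 1 → ∃ z, ‖z‖ = 1 ∧ ∀ s, ‖s‖ = 1 → dist t s ≤ δ → Adm C S z (dat s) := by
  classical
  choose x₁ x₂ h₁ h₂ using S.exists_top_sec hE
  let pos : P → Prop := fun t => S.B (-t) (x₁ (-t)) (x₁ (-t)) < S.B t (x₁ t) (x₁ t) ∨
    (S.B (-t) (x₁ (-t)) (x₁ (-t)) = S.B t (x₁ t) (x₁ t) ∧ WellOrderingRel t (-t))
  let dat : P → Datum ι := fun t => (decide (pos t), decide (0 ≤ S.B t (x₂ t) (x₂ t)),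
    C.c (x₁ t), C.c (x₂ t), C.c (x₁ (-t)))
  obtain ⟨δ, hδ, h⟩ := lebesgue_closed (isCompact_sphere (0 : P) 1)
    (fun d => {z : P | ‖z‖ = 1 ∧ Adm C S z d}) (isClosed_adm C S)
  refine ⟨dat, δ, hδ, ?_, ?_⟩
  · intro t ht
    have hne : t ≠ -t := by
      intro h
      apply ht
      have : (2 : ℝ) • t = 0 := by rw [two_smul]; nth_rewrite 2 [h]; simp
      simpa using this
    have hp : pos (-t) ↔ ¬ pos t := by
      simp only [pos, neg_neg]
      rcases lt_trichotomy (S.B (-t) (x₁ (-t)) (x₁ (-t))) (S.B t (x₁ t) (x₁ t)) with h | h | h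
      · simp [h, h.ne', h.le]
      · rcases trichotomous_of WellOrderingRel t (-t) with h1 | h1 | h1
        · simp [h, h1, asymm h1]
        · exact absurd h1 hne
        · simp [h, h1, asymm h1]
      · simp [h, h.ne', h.le]
    by_cases hpt : pos t <;> simp [dat, Datum.lab, flip, hp, hpt]
  · intro t ht
    obtain ⟨z, hz, hz'⟩ := h t (by simpa using ht)
    refine ⟨z, by simpa using hz, fun s hs hts => (hz' _ ⟨s, ⟨hs, ?_⟩, hts⟩).2⟩
    refine ⟨x₁ s, x₂ s, x₁ (-s), h₁ s, h₂ s, h₁ (-s), C.c_mem (h₁ s).1, C.c_mem (h₂ s).1,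
      C.c_mem (h₁ (-s)).1, ?_, ?_, ?_, ?_⟩
    · intro hp
      rcases of_decide_eq_true hp with h | h
      · exact h.le
      · exact h.1.le
    · intro hp
      have := of_decide_eq_false hp
      exact not_lt.mp fun h => this (Or.inl h)
    · intro hp
      exact of_decide_eq_true hp
    · intro hp
      exact (not_le.mp (of_decide_eq_false hp)).le

omit [InnerProductSpace ℝ P] [FiniteDimensional ℝ P] [FiniteDimensional ℝ E] in
theorem bal_of_adm {z : P} (hz : ‖z‖ = 1) {d d' : Datum ι} (hd : Adm C S z d)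
    (hd' : Adm C S z d') (h : d.1 = true) (h' : d'.1 = false) : S.Bal z := by
  obtain ⟨x₁, x₂, x₄, a1, -, a3, -, -, -, a7, -⟩ := hd
  obtain ⟨y₁, y₂, y₄, b1, -, b3, -, -, -, -, b8, -⟩ := hd'
  exact SymFam.bal_of (by rintro rfl; simp at hz) a1 a3 b1 b3 (a7 h) (b8 h')

omit [InnerProductSpace ℝ P] [FiniteDimensional ℝ P] [FiniteDimensional ℝ E] in
theorem lab_ne_flip {z : P} (hz : ‖z‖ = 1) {d d' : Datum ι} (hd : Adm C S z d)
    (hd' : Adm C S z d') : d'.lab ≠ flip d.lab := by
  have key : ∀ {d d' : Datum ι}, Adm C S z d → Adm C S z d' → d.1 = true → d'.1 = false →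
      d.2.2.1 ≠ d'.2.2.2.2 := by
    intro d d' hd hd' h h' heq
    have hb := bal_of_adm C S hz hd hd' h h'
    obtain ⟨x₁, x₂, x₄, a1, -, -, a4, -⟩ := hd
    obtain ⟨y₁, y₂, y₄, -, -, b3, -, -, b6, -⟩ := hd'
    exact C.orth _ _ a4 _ (heq ▸ b6) (hb.top_orth a1 b3)
  intro heq
  cases h : d.1 <;> cases h' : d'.1 <;> simp [Datum.lab, flip, h, h'] at heq
  · exact key hd' hd h' h heq
  · exact key hd hd' h h' heq.symm

/-- The labelled fundamental cycle. -/
theorem exists_cycle [Fintype ι] [DecidableEq ι] [Nonempty ι] (hE : 2 ≤ finrank ℝ E)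
    (h2 : 2 ≤ Fintype.card ι) (hP : Fintype.card ι ≤ finrank ℝ P) :
    ∃ (dat : P → Datum ι) (Sm : Multiset P → Prop)
      (Z : (Multiset P → ZMod 2) →ₗ[ZMod 2] ZMod 2),
      (∀ m, Sm m → m.card = Fintype.card ι ∧ ∃ z, ‖z‖ = 1 ∧ ∀ s ∈ m, Adm C S z (dat s)) ∧
      (∀ φ, (∀ m, Sm m → φ m = 0) → Z φ = 0) ∧ (∀ φ, Z (cob φ) = 0) ∧
      ∀ σ, Z (fun m => ind (facet σ) (m.map fun s => (dat s).lab)) = 1 := by
  obtain ⟨dat, δ, hδ, hodd, hloc⟩ := exists_data C S hE
  obtain ⟨n, hn⟩ : ∃ n, Fintype.card ι = n + 1 := ⟨Fintype.card ι - 1, by omega⟩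
  obtain ⟨L, hL1, hL2, hL3⟩ := exists_hemisphere (⊤ : Submodule ℝ P) n (by simp; omega) hδ
  have hodd' : ∀ x ∈ (⊤ : Submodule ℝ P), ‖x‖ = 1 → (dat (-x)).lab = flip (dat x).lab :=
    fun x _ hx => hodd x (by rintro rfl; simp at hx)
  have hgood : ∀ x ∈ (⊤ : Submodule ℝ P), ∀ y ∈ (⊤ : Submodule ℝ P), ‖x‖ = 1 → ‖y‖ = 1 →
      dist x y ≤ δ → (dat y).lab ≠ flip (dat x).lab := by
    intro x _ y _ hx hy hxy
    obtain ⟨z, hz, hz'⟩ := hloc x hx
    exact lab_ne_flip C S hz (hz' x hx (by simp [hδ.le])) (hz' y hy hxy)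
  obtain ⟨t, ht1, ht2, ht3⟩ := hL3 _ flip (fun s => (dat s).lab) flip_invol hodd' hgood
  let Z : (Multiset P → ZMod 2) →ₗ[ZMod 2] ZMod 2 :=
    L ∘ₗ (LinearMap.id + pullL (Multiset.map Neg.neg))
  have hZ : ∀ φ, Z φ = L fun m => φ m + φ (m.map Neg.neg) := fun φ => rfl
  have hZc : ∀ φ, Z (cob φ) = 0 := by
    intro φ
    rw [hZ, ← hL2 (by omega) (fun m => φ m + φ (m.map Neg.neg))
      (fun m => by rw [map_map_invol neg_involutive, add_comm])]
    congr 1
    funext m
    rw [cob_add, cob_map]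
  refine ⟨dat, Small ⊤ δ (n + 1), Z, ?_, ?_, hZc, ?_⟩
  · intro m hm
    refine ⟨by rw [hn]; exact hm.1, ?_⟩
    have hm0 : m ≠ 0 := by
      rintro rfl
      simpa using hm.1
    obtain ⟨x, hx⟩ := Multiset.exists_mem_of_ne_zero hm0
    obtain ⟨z, hz, hz'⟩ := hloc x (hm.2.1 x hx).2
    exact ⟨z, hz, fun s hs => hz' s (hm.2.1 s hs).2 (hm.2.2 x hx s hs)⟩
  · intro φ hφ
    rw [hZ]
    apply hL1
    intro m hm
    rw [hφ m hm, hφ _ hm.neg, add_zero]
  · exact facet_one Neg.neg _ (Small ⊤ δ (n + 1)) (fun m hm => hm.neg)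
      (fun m hm => by rw [hn]; exact hm.1) (fun m hm => hm.good hgood)
      (fun m hm => hm.map_lab_neg hodd') L hL1 Z hZ hZc t ht1 ht2 ht3

end labels

/-- Tight case: every set of colours is the colour set of a subspace. -/
theorem exists_split' {E : Type} [NormedAddCommGroup E] [InnerProductSpace ℝ E]
    [FiniteDimensional ℝ E] {ι : Type} [Fintype ι] [DecidableEq ι] (C : Cover E ι) (d : ℕ)
    (hd : finrank ℝ E = d) (h2 : 2 ≤ d) (h2' : 2 ≤ Fintype.card ι)
    (hι : Fintype.card ι ≤ Fintype.card (Up d)) (σ : Finset ι) :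
    ∃ V : Submodule ℝ E, (∀ i ∈ σ, C.Sees V i) ∧ ∀ i ∉ σ, C.Sees Vᗮ i := by
  have : Nonempty ι := Fintype.card_pos_iff.mp (by omega)
  let S := symFam ((stdOrthonormalBasis ℝ E).reindex (finCongr hd))
  obtain ⟨dat, Sm, Z, hSm, hZ, -, hN⟩ := exists_cycle C S (by omega) h2' (by simpa using hι)
  have hex : ∃ m, Sm m ∧ (m.map fun s => (dat s).lab) = facet σ := by
    by_contra hno
    push Not at hno
    have := hN σ
    rw [hZ _ fun m hm => ind_of_ne (hno m hm)] at this
    exact zero_ne_one this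
  obtain ⟨m, hm, hmσ⟩ := hex
  obtain ⟨-, z, hz, hadm⟩ := hSm m hm
  have hpos : ∀ i ∈ σ, ∃ s ∈ m, (dat s).1 = true ∧ (dat s).2.2.1 = i := by
    intro i hi
    have : (i, true) ∈ facet σ := by simp [mem_facet, hi]
    rw [← hmσ, Multiset.mem_map] at this
    obtain ⟨s, hs, h⟩ := this
    refine ⟨s, hs, ?_⟩
    cases h1 : (dat s).1 <;> simp_all [Datum.lab]
  have hneg : ∀ i ∉ σ, ∃ s ∈ m, (dat s).1 = false ∧ (dat s).2.2.2.2 = i := by
    intro i hi
    have : (i, false) ∈ facet σ := by simp [mem_facet, hi]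
    rw [← hmσ, Multiset.mem_map] at this
    obtain ⟨s, hs, h⟩ := this
    refine ⟨s, hs, ?_⟩
    cases h1 : (dat s).1 <;> simp_all [Datum.lab]
  by_cases hσ : σ = ∅
  · subst hσ
    refine ⟨⊥, by simp, fun i hi => ?_⟩
    obtain ⟨s, hs, -, rfl⟩ := hneg i hi
    obtain ⟨x₁, x₂, x₄, -, -, -, -, -, a6, -⟩ := hadm s hs
    exact ⟨x₄, by simp, a6⟩
  obtain ⟨j, hj⟩ := Finset.nonempty_iff_ne_empty.mpr hσ
  obtain ⟨s₀, hs₀, hs₀', -⟩ := hpos j hj
  refine ⟨Submodule.span ℝ {x | S.IsTop z x}, fun i hi => ?_, fun i hi => ?_⟩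
  · obtain ⟨s, hs, -, rfl⟩ := hpos i hi
    obtain ⟨x₁, x₂, x₄, a1, -, -, a4, -⟩ := hadm s hs
    exact ⟨x₁, Submodule.subset_span a1, a4⟩
  · obtain ⟨s, hs, hs', rfl⟩ := hneg i hi
    have hb := bal_of_adm C S hz (hadm s₀ hs₀) (hadm s hs) hs₀' hs'
    obtain ⟨x₁, x₂, x₄, -, -, a3, -, -, a6, -⟩ := hadm s hs
    refine ⟨x₄, ?_, a6⟩
    rw [Submodule.mem_orthogonal]
    intro u hu
    induction hu using Submodule.span_induction with
    | mem x hx => exact hb.top_orth hx a3
    | zero => simp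
    | add x y _ _ hx hy => rw [inner_add_left, hx, hy, add_zero]
    | smul a x _ hx => rw [inner_smul_left, hx, mul_zero]

end Crest.Agent.R50
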