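import Crest.Agent.R50.Basic

/-! Families of symmetric bilinear forms, their extremal vectors, and local data. -/

set_option autoImplicit false

open scoped RealInnerProductSpace
open Module

namespace Crest.Agent.R50

/-- A continuous odd family of symmetric bilinear forms on `E`, vanishing only at `0`. -/
structure SymFam (P E : Type) [NormedAddCommGroup P] [NormedAddCommGroup E]
    [InnerProductSpace ℝ E] where
  B : P → E →ₗ[ℝ] E →ₗ[ℝ] ℝ
  cont : Continuous fun p : P × E => B p.1 p.2 p.2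
  symm : ∀ t x y, B t x y = B t y x
  neg : ∀ t x y, B (-t) x y = -B t x y
  inj : ∀ t, (∀ x, B t x x = 0) → t = 0

/-- Index set of the entries on and above the diagonal. -/
abbrev Up (d : ℕ) : Type := {p : Fin d × Fin d // p.1 ≤ p.2}

section exist
variable {E : Type} [NormedAddCommGroup E] [InnerProductSpace ℝ E]

/-- The family of all symmetric forms, in coordinates. -/
noncomputable def symFam {d : ℕ} (b : OrthonormalBasis (Fin d) ℝ E) :
    SymFam (EuclideanSpace ℝ (Up d)) E where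
  B t := LinearMap.mk₂ ℝ
    (fun x y => ∑ p : Up d, t p * (⟪b p.1.1, x⟫ * ⟪b p.1.2, y⟫ + ⟪b p.1.2, x⟫ * ⟪b p.1.1, y⟫))
    (fun x x' y => by
      simp only [inner_add_right, ← Finset.sum_add_distrib]
      exact Finset.sum_congr rfl fun p _ => by ring)
    (fun a x y => by
      simp only [inner_smul_right, smul_eq_mul, Finset.mul_sum]
      exact Finset.sum_congr rfl fun p _ => by ring)
    (fun x y y' => by
      simp only [inner_add_right, ← Finset.sum_add_distrib]
      exact Finset.sum_congr rfl fun p _ => by ring)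
    (fun a x y => by
      simp only [inner_smul_right, smul_eq_mul, Finset.mul_sum]
      exact Finset.sum_congr rfl fun p _ => by ring)
  cont := by
    simp only [LinearMap.mk₂_apply]
    fun_prop
  symm t x y := by
    simp only [LinearMap.mk₂_apply]
    exact Finset.sum_congr rfl fun p _ => by ring
  neg t x y := by
    simp only [LinearMap.mk₂_apply, ← Finset.sum_neg_distrib]
    exact Finset.sum_congr rfl fun p _ => by simp
  inj t ht := by
    simp only [LinearMap.mk₂_apply] at ht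
    have hb : ∀ i j, ⟪b i, b j⟫ = if i = j then (1 : ℝ) else 0 := fun i j =>
      orthonormal_iff_ite.mp b.orthonormal i j
    have hd : ∀ i, t ⟨(i, i), le_rfl⟩ = 0 := by
      intro i
      have := ht (b i)
      rw [Finset.sum_eq_single ⟨(i, i), le_rfl⟩] at this
      · simpa [hb] using this
      · rintro ⟨⟨j, k⟩, hjk⟩ _ hne
        simp only [hb]
        by_cases h1 : j = i <;> by_cases h2 : k = i <;> simp_all
      · simp
    ext ⟨⟨i, j⟩, hij⟩
    by_cases h : i = j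
    · subst h
      exact hd i
    · have := ht (b i + b j)
      rw [Finset.sum_eq_single ⟨(i, j), hij⟩] at this
      · simpa [hb, inner_add_right, h, Ne.symm h] using this
      · rintro ⟨⟨k, l⟩, hkl⟩ _ hne
        by_cases h3 : k = l
        · subst h3
          simp [hd k]
        · simp only [hb, inner_add_right]
          have hne' : ¬ (k = i ∧ l = j) := by
            rintro ⟨rfl, rfl⟩
            exact hne rfl
          have hne'' : ¬ (k = j ∧ l = i) := by
            rintro ⟨rfl, rfl⟩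
            exact h (le_antisymm hij hkl)
          by_cases h1 : k = i <;> by_cases h2 : l = i <;> by_cases h4 : k = j <;>
            by_cases h5 : l = j <;> simp_all
      · simp

end exist

theorem exists_comb {E : Type} [NormedAddCommGroup E] [InnerProductSpace ℝ E] (x y z : E) :
    ∃ a b : ℝ, a ^ 2 + b ^ 2 = 1 ∧ ⟪z, a • x + b • y⟫ = 0 := by
  by_cases h : ⟪z, x⟫ = 0
  · exact ⟨1, 0, by norm_num, by simpa using h⟩
  · set r := Real.sqrt (⟪z, x⟫ ^ 2 + ⟪z, y⟫ ^ 2) with hr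
    have hpos : 0 < ⟪z, x⟫ ^ 2 + ⟪z, y⟫ ^ 2 := by positivity
    have hr0 : 0 < r := Real.sqrt_pos.mpr hpos
    have hr2 : r ^ 2 = ⟪z, x⟫ ^ 2 + ⟪z, y⟫ ^ 2 := Real.sq_sqrt hpos.le
    refine ⟨⟪z, y⟫ / r, -⟪z, x⟫ / r, ?_, ?_⟩
    · field_simp
      linarith
    · rw [inner_add_right, inner_smul_right, inner_smul_right]
      field_simp
      ring

theorem norm_comb {E : Type} [NormedAddCommGroup E] [InnerProductSpace ℝ E] {x y : E}
    (hx : ‖x‖ = 1) (hy : ‖y‖ = 1) (h : ⟪x, y⟫ = 0) {a b : ℝ} (hab : a ^ 2 + b ^ 2 = 1) :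
    ‖a • x + b • y‖ = 1 := by
  have h2 : ‖a • x + b • y‖ ^ 2 = 1 := by
    rw [norm_add_sq_real, inner_smul_left, inner_smul_right, h, norm_smul, norm_smul, hx, hy]
    simpa using hab
  exact (pow_eq_one_iff_of_nonneg (norm_nonneg _) two_ne_zero).mp h2

theorem eq_or_eq_neg_of_inner_sq {E : Type} [NormedAddCommGroup E] [InnerProductSpace ℝ E]
    {x y : E} (hx : ‖x‖ = 1) (hy : ‖y‖ = 1) (h : 1 ≤ ⟪x, y⟫ ^ 2) : y = x ∨ y = -x := by
  have h1 : ‖y - x‖ ^ 2 = 2 - 2 * ⟪x, y⟫ := by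
    rw [norm_sub_sq_real, hx, hy, real_inner_comm]
    ring
  have h2 : ‖y + x‖ ^ 2 = 2 + 2 * ⟪x, y⟫ := by
    rw [norm_add_sq_real, hx, hy, real_inner_comm]
    ring
  have h3 : ‖y - x‖ ^ 2 * ‖y + x‖ ^ 2 ≤ 0 := by
    rw [h1, h2]
    nlinarith
  have h4 : ‖y - x‖ ^ 2 * ‖y + x‖ ^ 2 = 0 := le_antisymm h3 (by positivity)
  rcases mul_eq_zero.mp h4 with h5 | h5
  · left
    simpa [sub_eq_zero] using h5
  · right
    simpa [add_eq_zero_iff_eq_neg] using h5

namespace SymFam

variable {P E : Type} [NormedAddCommGroup P] [NormedAddCommGroup E] [InnerProductSpace ℝ E]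
  (S : SymFam P E)

/-- `x` maximises the form on the unit sphere. -/
def IsTop (t : P) (x : E) : Prop := ‖x‖ = 1 ∧ ∀ y, S.B t y y ≤ S.B t x x * ‖y‖ ^ 2

/-- `x'` maximises the form on the unit sphere of the orthogonal complement of `x`. -/
def IsSec (t : P) (x x' : E) : Prop :=
  ‖x'‖ = 1 ∧ ⟪x, x'⟫ = 0 ∧ ∀ y, ⟪x, y⟫ = 0 → S.B t y y ≤ S.B t x' x' * ‖y‖ ^ 2

variable {S}

theorem eigen_aux {t : P} {x y : E} (hx : ‖x‖ = 1)
    (h : ∀ s : ℝ, S.B t (x + s • y) (x + s • y) ≤ S.B t x x * ‖x + s • y‖ ^ 2) :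
    S.B t x y = S.B t x x * ⟪x, y⟫ := by
  have h1 : ∀ s : ℝ, 0 ≤ (S.B t x x * ‖y‖ ^ 2 - S.B t y y) * (s * s) +
      (2 * (S.B t x x * ⟪x, y⟫ - S.B t x y)) * s + 0 := by
    intro s
    have := h s
    rw [norm_add_sq_real, inner_smul_right, norm_smul, hx] at this
    simp only [map_add, map_smul, LinearMap.add_apply, LinearMap.smul_apply, smul_eq_mul,
      S.symm t y x, Real.norm_eq_abs, mul_pow, sq_abs] at this
    nlinarith
  have h2 := discrim_le_zero h1
  unfold discrim at h2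
  nlinarith [sq_nonneg (S.B t x x * ⟪x, y⟫ - S.B t x y)]

theorem IsTop.eigen {t : P} {x : E} (h : S.IsTop t x) (y : E) :
    S.B t x y = S.B t x x * ⟪x, y⟫ :=
  eigen_aux h.1 fun _ => h.2 _

theorem IsSec.eigen {t : P} {x x' : E} (h : S.IsSec t x x') (y : E) (hy : ⟪x, y⟫ = 0) :
    S.B t x' y = S.B t x' x' * ⟪x', y⟫ :=
  eigen_aux h.1 fun s => h.2.2 _ (by rw [inner_add_right, inner_smul_right, h.2.1, hy]; simp)

theorem IsTop.val_eq {t : P} {x x' : E} (h : S.IsTop t x) (h' : S.IsTop t x') :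
    S.B t x x = S.B t x' x' := by
  have h1 := h.2 x'
  have h2 := h'.2 x
  rw [h'.1] at h1
  rw [h.1] at h2
  linarith

theorem exists_max [FiniteDimensional ℝ E] (t : P) (W : Submodule ℝ E) (hW : 1 ≤ finrank ℝ W) :
    ∃ x ∈ W, ‖x‖ = 1 ∧ ∀ y ∈ W, S.B t y y ≤ S.B t x x * ‖y‖ ^ 2 := by
  have hS : IsCompact ((W : Set E) ∩ Metric.sphere 0 1) :=
    (isCompact_sphere (0 : E) 1).inter_left W.closed_of_finiteDimensional
  obtain ⟨e, heW, he⟩ := exists_unit_mem W hW
  have hc : Continuous fun x : E => S.B t x x :=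
    S.cont.comp (f := fun x : E => (t, x)) (by fun_prop)
  obtain ⟨x, hx, hmax⟩ := hS.exists_isMaxOn ⟨e, heW, by simpa using he⟩ hc.continuousOn
  refine ⟨x, hx.1, by simpa using hx.2, fun y hy => ?_⟩
  by_cases hy0 : y = 0
  · simp [hy0]
  · have hn : 0 < ‖y‖ := norm_pos_iff.mpr hy0
    have h1 : S.B t (‖y‖⁻¹ • y) (‖y‖⁻¹ • y) ≤ S.B t x x :=
      hmax (a := ‖y‖⁻¹ • y) ⟨W.smul_mem _ hy, by
        simp [norm_smul, inv_mul_cancel₀ hn.ne']⟩
    simp only [map_smul, LinearMap.smul_apply, smul_eq_mul] at h1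
    have h2 : S.B t y y = (‖y‖⁻¹ * (‖y‖⁻¹ * S.B t y y)) * ‖y‖ ^ 2 := by field_simp
    rw [h2]
    exact mul_le_mul_of_nonneg_right h1 (by positivity)

theorem exists_top_sec [FiniteDimensional ℝ E] (hE : 2 ≤ finrank ℝ E) (t : P) :
    ∃ x x', S.IsTop t x ∧ S.IsSec t x x' := by
  obtain ⟨x, -, hx1, hx⟩ := exists_max (S := S) t ⊤ (by simp; omega)
  have h1 := finrank_inf_orth ⊤ x
  rw [top_inf_eq, finrank_top] at h1
  obtain ⟨x', hx', hx'1, hx'2⟩ := exists_max (S := S) t (ℝ ∙ x)ᗮ (by omega)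
  exact ⟨x, x', ⟨hx1, fun y => hx y trivial⟩, hx'1,
    Submodule.mem_orthogonal_singleton_iff_inner_right.mp hx',
    fun y hy => hx'2 y (Submodule.mem_orthogonal_singleton_iff_inner_right.mpr hy)⟩

/-- The largest and the smallest eigenvalue are opposite. -/
def Bal (S : SymFam P E) (z : P) : Prop :=
  ∀ x y, S.IsTop z x → S.IsTop (-z) y → S.B z x x = S.B (-z) y y ∧ 0 < S.B z x x

theorem bal_of {z : P} (hz : z ≠ 0) {x y x' y' : E} (hx : S.IsTop z x) (hy : S.IsTop (-z) y)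
    (hx' : S.IsTop z x') (hy' : S.IsTop (-z) y') (h1 : S.B (-z) y y ≤ S.B z x x)
    (h2 : S.B z x' x' ≤ S.B (-z) y' y') : S.Bal z := by
  intro u v hu hv
  have e1 := hu.val_eq hx
  have e2 := hu.val_eq hx'
  have e3 := hv.val_eq hy
  have e4 := hv.val_eq hy'
  have e5 : S.B z u u = S.B (-z) v v := by linarith
  refine ⟨e5, ?_⟩
  by_contra hle
  push Not at hle
  apply hz
  apply S.inj
  intro w
  have a1 := hu.2 w
  have a2 := hv.2 w
  rw [S.neg z w w, ← e5] at a2
  have a3 : S.B z u u * ‖w‖ ^ 2 ≤ 0 := mul_nonpos_of_nonpos_of_nonneg hle (by positivity)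
  linarith

theorem Bal.top_orth {z : P} (h : S.Bal z) {x y : E} (hx : S.IsTop z x) (hy : S.IsTop (-z) y) :
    ⟪x, y⟫ = 0 := by
  obtain ⟨h1, h2⟩ := h x y hx hy
  have a1 := hx.eigen y
  have a2 := hy.eigen x
  rw [S.neg z y x, S.symm z y x, ← h1, real_inner_comm] at a2
  have : S.B z x x * ⟪x, y⟫ = 0 := by linarith
  exact (mul_eq_zero.mp this).resolve_left h2.ne'

theorem sec_nonneg {z : P} {u u' x x' : E} (hu : S.IsTop z u) (hu' : S.IsSec z u u')
    (h0 : 0 ≤ S.B z u' u') (hx' : S.IsSec z x x') : 0 ≤ S.B z x' x' := by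
  obtain ⟨a, b, hab, h⟩ := exists_comb u u' x
  have h1 := hx'.2.2 _ h
  rw [norm_comb hu.1 hu'.1 hu'.2.1 hab] at h1
  have h2 : S.B z u u' = 0 := by rw [hu.eigen u', hu'.2.1, mul_zero]
  have h3 := hu.2 u'
  rw [hu'.1] at h3
  simp only [map_add, map_smul, LinearMap.add_apply, LinearMap.smul_apply, smul_eq_mul,
    S.symm z u' u, h2] at h1
  nlinarith [sq_nonneg a, sq_nonneg b, mul_nonneg (sq_nonneg a) (le_trans h0 (by linarith :
    S.B z u' u' ≤ S.B z u u)), mul_nonneg (sq_nonneg b) h0]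

theorem Bal.sec_orth {z : P} (h : S.Bal z) {x x' y : E} (hx : S.IsTop z x) (hx' : S.IsSec z x x')
    (h0 : 0 ≤ S.B z x' x') (hy : S.IsTop (-z) y) : ⟪x', y⟫ = 0 := by
  obtain ⟨h1, h2⟩ := h x y hx hy
  have a1 := hx'.eigen y (h.top_orth hx hy)
  have a2 := hy.eigen x'
  rw [S.neg z y x', S.symm z y x', ← h1, real_inner_comm] at a2
  have : (S.B z x x + S.B z x' x') * ⟪x', y⟫ = 0 := by linarith
  exact (mul_eq_zero.mp this).resolve_left (by linarith)

theorem top_unique {z : P} {u u' x : E} (hu : S.IsTop z u) (hu' : S.IsSec z u u')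
    (h0 : S.B z u' u' ≤ 0) (hpos : 0 < S.B z u u) (hx : S.IsTop z x) : x = u ∨ x = -u := by
  apply eq_or_eq_neg_of_inner_sq hu.1 hx.1
  set a := ⟪u, x⟫ with ha
  have h1 := hu'.2.2 (x - a • u) (by
    rw [inner_sub_right, inner_smul_right, real_inner_self_eq_norm_sq, hu.1]; simp [ha])
  have h2 : S.B z u' u' * ‖x - a • u‖ ^ 2 ≤ 0 := mul_nonpos_of_nonpos_of_nonneg h0 (by positivity)
  simp only [map_sub, map_smul, LinearMap.sub_apply, LinearMap.smul_apply, smul_eq_mul,
    S.symm z x u, hu.eigen x, ← ha, hx.val_eq hu] at h1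
  by_contra hlt
  push Not at hlt
  nlinarith

end SymFam

end Crest.Agent.R50
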