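import Crest.Agent.R50.Local

/-! The non-face triples of the nerve form a two-graph. -/

set_option autoImplicit false

open scoped RealInnerProductSpace
open Module

namespace Crest.Agent.R50

variable (C : Cover E4 (Fin 10))

open Classical in
/-- Indicator of the non-faces. -/
noncomputable def nf (σ : Finset (Fin 10)) : ZMod 2 := if C.K σ then 0 else 1

theorem parity_emb (e : Fin 4 ↪ Fin 10) (h0 : ¬ C.K {e 0, e 1, e 2}) :
    ∑ v : Fin 4, nf C ((Finset.univ.erase v).map e) = 0 := by
  classical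
  let S := symFam (EuclideanSpace.basisFun (Fin 4) ℝ)
  obtain ⟨dat, Sm, Z, hSm, hZ, hZc, hN⟩ := exists_cycle C S (by simp) (by simp)
    (by simp; decide)
  -- pass to data
  let Λ : (Multiset (Datum (Fin 10)) → ZMod 2) →ₗ[ZMod 2] ZMod 2 := Z ∘ₗ pullL (Multiset.map dat)
  let Ok : Multiset (Datum (Fin 10)) → Prop := fun D =>
    D.card = 10 ∧ ∃ z, ‖z‖ = 1 ∧ ∀ d ∈ D, Adm C S z d
  have hΛ : ∀ φ ψ, (∀ D, Ok D → φ D = ψ D) → Λ φ = Λ ψ := by
    intro φ ψ h
    rw [← sub_eq_zero, ← map_sub]
    apply hZ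
    intro m hm
    obtain ⟨h1, z, hz, h2⟩ := hSm m hm
    refine sub_eq_zero.mpr (h _ ⟨by simpa using h1, z, hz, fun d hd => ?_⟩)
    obtain ⟨s, hs, rfl⟩ := Multiset.mem_map.mp hd
    exact h2 s hs
  have hΛc : ∀ φ, Λ (cob φ) = 0 := by
    intro φ
    rw [← hZc (fun m => φ (m.map dat))]
    change Z _ = Z _
    congr 1
    funext m
    exact (cob_map dat φ m).symm
  have hΛN : ∀ σ, Λ (fun D => ind (facet σ) (D.map Datum.lab)) = 1 := by
    intro σ
    rw [← hN σ]
    change Z _ = Z _
    congr 1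
    funext m
    change ind _ ((m.map dat).map Datum.lab) = _
    rw [Multiset.map_map]
    rfl
  let r : Fin 10 → Fin 4 := Function.invFun e
  have hre : ∀ v, r (e v) = v := Function.leftInverse_invFun e.injective
  let β : Finset (Fin 10) := (Finset.univ.map e)ᶜ
  have hβ : ∀ i, i ∉ β → e (r i) = i := by
    intro i hi
    simp only [β, Finset.mem_compl, not_not, Finset.mem_map] at hi
    obtain ⟨v, -, rfl⟩ := hi
    rw [hre]
  have heβ : ∀ v, e v ∉ β := fun v => by simp [β]
  have hβc : β.card = 6 := by simp [β, Finset.card_compl]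
  have hβK : ¬ C.K β := fun h => by have := K_card_le C β h; omega
  let τ : Fin 4 → Finset (Fin 10) := fun v => (Finset.univ.erase v).map e
  have hτ : ∀ v i, i ∉ τ v ↔ i = e v ∨ i ∈ β := by
    intro v i
    by_cases hi : i ∈ β
    · simp only [hi, or_true, iff_true, τ, Finset.mem_map]
      rintro ⟨u, -, rfl⟩
      exact heβ u hi
    · rw [← hβ i hi]
      simp [τ, heβ]
  have hτc : ∀ v, (τ v)ᶜ.val = e v ::ₘ β.val := by
    intro v
    have : (τ v)ᶜ = insert (e v) β := by
      ext i
      rw [Finset.mem_compl, hτ, Finset.mem_insert]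
    rw [this, Finset.insert_val_of_notMem (heβ v)]
  let p4 : Multiset (Fin 10 × Fin 10) → Multiset (Fin 4 × Fin 4) := Multiset.map (Prod.map r r)
  let Θ : Multiset (Datum (Fin 10)) → ZMod 2 := fun D =>
    cob omega (p4 (posD D)) * ind β.val (negD D)
  let Θ' : Fin 4 → Multiset (Datum (Fin 10)) → ZMod 2 := fun v D =>
    xi v (p4 (posD D)) * ind (e v ::ₘ β.val) (negD D)
  -- a balanced form from a positive and a negative vertex
  have hbal : ∀ (z : EuclideanSpace ℝ (Up 4)) (s : Multiset (Datum (Fin 10))), ‖z‖ = 1 →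
      (∀ d ∈ s, Adm C S z d) → posD s ≠ 0 → negD s ≠ 0 → S.Bal z := by
    intro z s hz hs h1 h2
    obtain ⟨p, hp⟩ := Multiset.exists_mem_of_ne_zero h1
    obtain ⟨i, hi⟩ := Multiset.exists_mem_of_ne_zero h2
    obtain ⟨d, hd, hd1, -⟩ := mem_posD hp
    obtain ⟨d', hd', hd1', -⟩ := mem_negD hi
    exact bal_of_adm C S hz (hs d hd) (hs d' hd') hd1 hd1'
  have hβne : ∀ N : Multiset (Fin 10), β.val ≤ N → N ≠ 0 := by
    intro N hN h
    have := Multiset.card_le_card hN
    rw [h, Finset.card_val, hβc] at this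
    simp at this
  have hexreg : ∀ s : Multiset (Datum (Fin 10)), posD s ≠ 0 → (∀ d ∈ s, d.2.1 = true) →
      ∃ d ∈ s, d.2.1 = true := by
    intro s h1 h2
    obtain ⟨p, hp⟩ := Multiset.exists_mem_of_ne_zero h1
    obtain ⟨d, hd, -⟩ := mem_posD hp
    exact ⟨d, hd, h2 d hd⟩
  -- colours of positive vertices avoid the negative colours
  have havoid : ∀ (z : EuclideanSpace ℝ (Up 4)) (s : Multiset (Datum (Fin 10))), S.Bal z →
      (∀ d ∈ s, Adm C S z d) → (∃ d ∈ s, d.2.1 = true) →
      ∀ p ∈ posD s, p.1 ∉ negD s ∧ p.2 ∉ negD s := by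
    rintro z s hb hs ⟨dr, hr, hr'⟩ p hp
    obtain ⟨d, hd, -, h1, h2⟩ := mem_posD hp
    constructor
    · intro h
      obtain ⟨d', hd', -, h3⟩ := mem_negD h
      exact (loc_reg1 hb (hs dr hr) hr' (hs d hd) (hs d' hd')).1 (by rw [h1, h3])
    · intro h
      obtain ⟨d', hd', -, h3⟩ := mem_negD h
      exact (loc_reg1 hb (hs dr hr) hr' (hs d hd) (hs d' hd')).2 (by rw [h2, h3])
  -- the boundary of the region
  have hbd : ∀ D, Ok D → ∀ d s, D = d ::ₘ s → d.2.1 = false → (∀ d' ∈ s, d'.2.1 = true) →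
      posD s ≠ 0 → β.val ≤ negD s →
      (∀ p ∈ p4 (posD s), ∀ q ∈ p4 (posD s), p.1 ≠ q.2) ∧
      (∀ p ∈ p4 (posD s), e p.1 ∉ negD s ∧ e p.2 ∉ negD s) ∧
      (¬ ∀ i ∈ [0, 1, 2], ∃ p ∈ p4 (posD s), p.1 = i) ∧
      (¬ ∀ i ∈ [0, 1, 2], ∃ p ∈ p4 (posD s), p.2 = i) := by
    rintro D ⟨-, z, hz, hD⟩ d s rfl hd hs hpos hneg
    have hs' : ∀ d' ∈ s, Adm C S z d' := fun d' hd' => hD d' (Multiset.mem_cons_of_mem hd')
    have hd' : Adm C S z d := hD d (Multiset.mem_cons_self _ _)
    have hb := hbal z s hz hs' hpos (hβne _ hneg)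
    obtain ⟨dr, hr, hr'⟩ := hexreg s hpos hs
    have hav := havoid z s hb hs' ⟨dr, hr, hr'⟩
    have her : ∀ p ∈ posD s, e (r p.1) = p.1 ∧ e (r p.2) = p.2 := fun p hp =>
      ⟨hβ _ fun h => (hav p hp).1 (Multiset.mem_of_le hneg h),
        hβ _ fun h => (hav p hp).2 (Multiset.mem_of_le hneg h)⟩
    refine ⟨?_, ?_, ?_, ?_⟩
    · intro p hp q hq hpq
      obtain ⟨p', hp', rfl⟩ := Multiset.mem_map.mp hp
      obtain ⟨q', hq', rfl⟩ := Multiset.mem_map.mp hq
      have h1 : p'.1 = q'.2 := by
        rw [← (her p' hp').1, ← (her q' hq').2]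
        exact congrArg e hpq
      obtain ⟨a, ha, -, ha1, -⟩ := mem_posD hp'
      obtain ⟨b, hb', -, -, hb2⟩ := mem_posD hq'
      exact loc_non2 hb hd' hd (hs' a ha) (hs' b hb') (by rw [ha1, hb2, h1])
    · intro p hp
      obtain ⟨p', hp', rfl⟩ := Multiset.mem_map.mp hp
      simp only [Prod.map_fst, Prod.map_snd, her p' hp']
      exact hav p' hp'
    · intro h
      apply h0
      apply loc_non1 hb hd' hd
      have key : ∀ i ∈ [0, 1, 2], ∃ d, Adm C S z d ∧ d.2.2.1 = e i := by
        intro i hi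
        obtain ⟨p, hp, rfl⟩ := h i hi
        obtain ⟨p', hp', rfl⟩ := Multiset.mem_map.mp hp
        obtain ⟨a, ha, -, ha1, -⟩ := mem_posD hp'
        exact ⟨a, hs' a ha, by rw [ha1]; exact (her p' hp').1.symm⟩
      intro i hi
      simp only [Finset.mem_insert, Finset.mem_singleton] at hi
      rcases hi with rfl | rfl | rfl <;> exact key _ (by simp)
    · intro h
      apply h0
      apply loc_both hb hd' hd (hs' dr hr) hr' β _ hβK
      · have key : ∀ i ∈ [0, 1, 2], ∃ d, Adm C S z d ∧ d.2.2.2.1 = e i := by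
          intro i hi
          obtain ⟨p, hp, rfl⟩ := h i hi
          obtain ⟨p', hp', rfl⟩ := Multiset.mem_map.mp hp
          obtain ⟨a, ha, -, -, ha1⟩ := mem_posD hp'
          exact ⟨a, hs' a ha, by rw [ha1]; exact (her p' hp').2.symm⟩
        intro i hi
        simp only [Finset.mem_insert, Finset.mem_singleton] at hi
        rcases hi with rfl | rfl | rfl <;> exact key _ (by simp)
      · intro i hi
        obtain ⟨a, ha, -, ha1⟩ := mem_negD (Multiset.mem_of_le hneg hi)
        exact ⟨a, hs' a ha, ha1⟩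
  have hp4 : ∀ (Q : Multiset (Fin 10 × Fin 10)) (k : ℕ), (p4 Q).card = k + 1 → Q ≠ 0 := by
    rintro Q k h rfl
    simp [p4] at h
  have hΘ : ∀ D, Ok D → cob (fun s => reg s * Θ s) D = reg D * cob Θ D := by
    intro D hD
    apply cob_reg_mul
    intro d s hs hd hs'
    by_contra hne
    have h1 := card_of_cob_omega (left_ne_zero_of_mul hne)
    have h2 := eq_of_ind_ne_zero (right_ne_zero_of_mul hne)
    obtain ⟨a1, -, a3, a4⟩ := hbd D hD d s hs hd hs' (hp4 _ _ h1) h2.ge
    exact left_ne_zero_of_mul hne (cob_omega_eq_zero a1 a3 a4)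
  have hΘ' : ∀ v D, Ok D → cob (fun s => reg s * Θ' v s) D = reg D * cob (Θ' v) D := by
    intro v D hD
    apply cob_reg_mul
    intro d s hs hd hs'
    by_contra hne
    have h1 := card_of_xi (left_ne_zero_of_mul hne)
    have h2 := eq_of_ind_ne_zero (right_ne_zero_of_mul hne)
    obtain ⟨a1, a2, -, -⟩ := hbd D hD d s hs hd hs' (hp4 _ _ h1)
      (by rw [h2]; exact Multiset.le_cons_self _ _)
    refine left_ne_zero_of_mul hne (xi_eq_zero a1 fun p hp => ⟨?_, ?_⟩)
    · rintro rfl
      exact (a2 p hp).1 (by rw [h2]; exact Multiset.mem_cons_self _ _)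
    · rintro rfl
      exact (a2 p hp).2 (by rw [h2]; exact Multiset.mem_cons_self _ _)
  -- the interior computation
  have hint : ∀ D, Ok D → reg D * cob Θ D + ∑ v, nf C (τ v) * (reg D * cob (Θ' v) D) =
      ∑ v, nf C (τ v) * ind (facet (τ v)) (D.map Datum.lab) := by
    rintro D ⟨hcard, z, hz, hD⟩
    have hfacet : ∀ v, D.map Datum.lab = facet (τ v) ↔
        (posD D).map Prod.fst = (τ v).val ∧ negD D = e v ::ₘ β.val := by
      intro v
      rw [map_lab, facet, hτc]
      exact ⟨signed_inj, fun h => by rw [h.1, h.2]⟩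
    by_cases hreg : ∀ d ∈ D, d.2.1 = true
    swap
    · simp only [reg, if_neg hreg, zero_mul, mul_zero, Finset.sum_const_zero, add_zero]
      symm
      apply Finset.sum_eq_zero
      intro v _
      by_contra hne
      obtain ⟨h1, h2⟩ := (hfacet v).mp (eq_of_ind_ne_zero (right_ne_zero_of_mul hne))
      have h3 : posD D ≠ 0 := by
        intro h
        have := congrArg Multiset.card h1
        rw [h, Finset.card_val, Finset.card_map, Finset.card_erase_of_mem (Finset.mem_univ v)]
          at this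
        simp at this
      have hb := hbal z D hz hD h3 (by rw [h2]; simp)
      push Not at hreg
      obtain ⟨dn, hn, hn'⟩ := hreg
      apply left_ne_zero_of_mul hne
      rw [nf, if_pos]
      apply loc_non1 hb (hD dn hn) (by simpa using hn')
      intro i hi
      have : i ∈ (posD D).map Prod.fst := by rw [h1]; exact hi
      obtain ⟨p, hp, rfl⟩ := Multiset.mem_map.mp this
      obtain ⟨a, ha, -, ha1, -⟩ := mem_posD hp
      exact ⟨a, hD a ha, ha1⟩
    have hnK : posD D ≠ 0 → negD D ≠ 0 → ∀ σ : Finset (Fin 10), (∀ i ∉ σ, i ∈ negD D) →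
        ¬ C.K σ := by
      intro h1 h2 σ hσ
      obtain ⟨dr, hr, hr'⟩ := hexreg D h1 hreg
      apply loc_reg2 (hbal z D hz hD h1 h2) (hD dr hr) hr'
      intro i hi
      obtain ⟨a, ha, -, ha1⟩ := mem_negD (hσ i hi)
      exact ⟨a, hD a ha, ha1⟩
    have e1 : cob Θ D = ∑ v, cob omega (p4 (posD D)) * ind (e v ::ₘ β.val) (negD D) := by
      rw [cob_mul (fun Q => cob omega (p4 Q)) (ind β.val), cob_map (Prod.map r r) (cob omega),
        cob_cob, zero_mul, zero_add, cob_ind β.nodup, ← Finset.mul_sum]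
      congr 1
      rw [← Finset.sum_map Finset.univ e (fun u => ind (u ::ₘ β.val) (negD D))]
      congr 1
      ext i
      simp [β]
    have e2 : ∀ v, cob (Θ' v) D = cob (xi v) (p4 (posD D)) * ind (e v ::ₘ β.val) (negD D) := by
      intro v
      have hnd : (e v ::ₘ β.val).Nodup := Multiset.nodup_cons.mpr ⟨heβ v, β.nodup⟩
      rw [cob_mul (fun Q => xi v (p4 Q)) (ind (e v ::ₘ β.val)), cob_map (Prod.map r r) (xi v),
        cob_ind hnd, add_eq_left]
      by_contra hne
      have h1 := card_of_xi (left_ne_zero_of_mul hne)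
      obtain ⟨u, hu, hu'⟩ := Finset.exists_ne_zero_of_sum_ne_zero (right_ne_zero_of_mul hne)
      have h2 := eq_of_ind_ne_zero hu'
      have hu2 : u ∈ τ v := by
        by_contra h
        rw [hτ] at h
        simp only [Finset.mem_filter, Finset.mem_univ, true_and, Multiset.mem_cons,
          Finset.mem_val] at hu
        exact hu h
      refine hnK (hp4 _ _ h1) (by rw [h2]; simp) ((τ v).erase u) ?_ (K_of_card_le_two C _ ?_)
      · intro i hi
        rw [h2, Multiset.mem_cons, Multiset.mem_cons, Finset.mem_val, ← hτ]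
        rw [Finset.mem_erase] at hi
        tauto
      · rw [Finset.card_erase_of_mem hu2]
        simp [τ]
    simp only [reg, if_pos hreg, one_mul, e1, e2]
    rw [← Finset.sum_add_distrib]
    apply Finset.sum_congr rfl
    intro v _
    by_cases hneg : negD D = e v ::ₘ β.val
    swap
    · rw [ind_of_ne hneg, ind_of_ne fun h => hneg ((hfacet v).mp h).2]
      simp
    have hc3 : (posD D).card = 3 := by
      have := card_parts D
      rw [hneg, Multiset.card_cons, Finset.card_val, hβc, hcard] at this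
      omega
    have hp0 : posD D ≠ 0 := by
      intro h
      simp [h] at hc3
    have hn0 : negD D ≠ 0 := by rw [hneg]; simp
    have hnf : nf C (τ v) = 1 := by
      rw [nf, if_neg]
      apply hnK hp0 hn0
      intro i hi
      rw [hneg, Multiset.mem_cons, Finset.mem_val, ← hτ]
      exact hi
    have hav := havoid z D (hbal z D hz hD hp0 hn0) hD (hexreg D hp0 hreg)
    have her : ∀ p ∈ posD D, e (r p.1) = p.1 ∧ r p.1 ≠ v := by
      intro p hp
      have h1 := (hav p hp).1
      rw [hneg, Multiset.mem_cons, not_or] at h1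
      refine ⟨hβ _ h1.2, fun h => h1.1 ?_⟩
      rw [← hβ _ h1.2, h]
    rw [hnf, hneg, ind_self, mul_one, mul_one, one_mul, one_mul, cob_omega_add_cob_xi]
    · have hiff : (p4 (posD D)).map Prod.fst = (Finset.univ.erase v).val ↔
          D.map Datum.lab = facet (τ v) := by
        rw [hfacet, and_iff_left hneg]
        have h1 : ((p4 (posD D)).map Prod.fst).map e = (posD D).map Prod.fst := by
          simp only [p4, Multiset.map_map]
          exact Multiset.map_congr rfl fun p hp => (her p hp).1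
        rw [← h1]
        exact (Multiset.map_injective e.injective).eq_iff.symm
      by_cases h : D.map Datum.lab = facet (τ v)
      · rw [hiff.mpr h, h, ind_self, ind_self]
      · rw [ind_of_ne h, ind_of_ne (hiff.not.mpr h)]
    · intro p hp
      obtain ⟨p', hp', rfl⟩ := Multiset.mem_map.mp hp
      exact (her p' hp').2
  have hfin := hΛ (cob (fun s => reg s * Θ s) + ∑ v, nf C (τ v) • cob (fun s => reg s * Θ' v s))
    (∑ v, nf C (τ v) • fun D => ind (facet (τ v)) (D.map Datum.lab)) (by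
      intro D hD
      simp only [Pi.add_apply, Finset.sum_apply, Pi.smul_apply, smul_eq_mul, hΘ D hD, hΘ' _ D hD]
      exact hint D hD)
  simp only [map_add, map_sum, map_smul, hΛc, hΛN, smul_eq_mul, mul_zero, mul_one,
    Finset.sum_const_zero, add_zero] at hfin
  exact hfin.symm

theorem parity_four {a b c d : Fin 10} (hab : a ≠ b) (hac : a ≠ c) (had : a ≠ d) (hbc : b ≠ c)
    (hbd : b ≠ d) (hcd : c ≠ d) (h : ¬ C.K {a, b, c}) :
    nf C {b, c, d} + nf C {a, c, d} + nf C {a, b, d} + nf C {a, b, c} = 0 := by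
  let e : Fin 4 ↪ Fin 10 := ⟨![a, b, c, d], by
    intro i j hij
    fin_cases i <;> fin_cases j <;> simp_all [eq_comm]⟩
  have h1 := parity_emb C e h
  rw [Fin.sum_univ_four, show (Finset.univ.erase 0 : Finset (Fin 4)) = {1, 2, 3} by decide,
    show (Finset.univ.erase 1 : Finset (Fin 4)) = {0, 2, 3} by decide,
    show (Finset.univ.erase 2 : Finset (Fin 4)) = {0, 1, 3} by decide,
    show (Finset.univ.erase 3 : Finset (Fin 4)) = {0, 1, 2} by decide] at h1
  simp only [Finset.map_insert, Finset.map_singleton] at h1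
  exact h1

theorem nf_swap₁ (a b c : Fin 10) : nf C {a, b, c} = nf C {b, a, c} := by
  rw [Finset.insert_comm]

theorem nf_swap₂ (a b c : Fin 10) : nf C {a, b, c} = nf C {a, c, b} := by
  rw [Finset.pair_comm]

theorem nf_of_K {σ : Finset (Fin 10)} (h : C.K σ) : nf C σ = 0 := if_pos h

theorem nf_deg (a b : Fin 10) : nf C {a, a, b} = 0 := by
  rw [Finset.insert_idem]
  exact nf_of_K C (K_pair C a b)

theorem parity_all (a b c d : Fin 10) :
    nf C {b, c, d} + nf C {a, c, d} + nf C {a, b, d} + nf C {a, b, c} = 0 := by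
  have hz := fun σ => z2_add_self (nf C σ)
  by_cases hab : a = b
  · subst hab
    rw [nf_deg, nf_deg, hz]
    simp
  by_cases hac : a = c
  · subst hac
    rw [nf_deg, nf_swap₂ C a b a, nf_deg, nf_swap₁ C b a d]
    simp [hz]
  by_cases had : a = d
  · subst had
    rw [nf_swap₂ C a c a, nf_swap₂ C a b a, nf_deg, nf_deg, nf_swap₂ C b c a, nf_swap₁ C b a c]
    simp [hz]
  by_cases hbc : b = c
  · subst hbc
    rw [nf_deg, nf_swap₁ C a b b, nf_swap₂ C b a b, nf_deg]
    simp [hz]
  by_cases hbd : b = d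
  · subst hbd
    rw [nf_swap₂ C b c b, nf_deg, nf_swap₁ C a b b, nf_swap₂ C b a b, nf_deg, nf_swap₂ C a c b]
    simp [hz]
  by_cases hcd : c = d
  · subst hcd
    rw [nf_swap₁ C b c c, nf_swap₂ C c b c, nf_deg, nf_swap₁ C a c c, nf_swap₂ C c a c, nf_deg]
    simp [hz]
  by_cases h1 : C.K {a, b, c}
  swap
  · exact parity_four C hab hac had hbc hbd hcd h1
  by_cases h2 : C.K {a, b, d}
  swap
  · have := parity_four C hab had hac hbd hbc (Ne.symm hcd) h2
    rw [nf_swap₂ C b d c, nf_swap₂ C a d c] at this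
    linear_combination this
  by_cases h3 : C.K {a, c, d}
  swap
  · have := parity_four C hac had hab hcd (Ne.symm hbc) (Ne.symm hbd) h3
    rw [nf_swap₂ C c d b, nf_swap₁ C c b d, nf_swap₂ C a d b, nf_swap₂ C a c b] at this
    linear_combination this
  by_cases h4 : C.K {b, c, d}
  swap
  · have := parity_four C hbc hbd (Ne.symm hab) hcd (Ne.symm hac) (Ne.symm had) h4
    rw [nf_swap₂ C c d a, nf_swap₁ C c a d, nf_swap₂ C b d a, nf_swap₁ C b a d, nf_swap₂ C b c a,
      nf_swap₁ C b a c] at this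
    linear_combination this
  simp [nf_of_K C h1, nf_of_K C h2, nf_of_K C h3, nf_of_K C h4]

/-- The non-face triples form a two-graph. -/
theorem exists_two_graph : ∃ w : Fin 10 → Fin 10 → ZMod 2, (∀ i, w i i = 0) ∧
    (∀ i j, w i j = w j i) ∧ ∀ i j k, C.K {i, j, k} ↔ w i j + w j k + w i k = 0 := by
  refine ⟨fun i j => nf C {0, i, j}, fun i => ?_, fun i j => nf_swap₂ C 0 i j, fun i j k => ?_⟩
  · change nf C {0, i, i} = 0
    rw [nf_swap₁, nf_swap₂, nf_deg]
  · have h := parity_all C 0 i j k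
    have h2 := z2_add_self (nf C {i, j, k})
    have h3 : nf C {0, i, j} + nf C {0, j, k} + nf C {0, i, k} = nf C {i, j, k} := by
      linear_combination h - h2
    simp only [h3]
    unfold nf
    split_ifs with h4 <;> simp [h4]

end Crest.Agent.R50
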